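import Vale.Agent.P237.Five.Moment

/-!
# P237, `n = 6`: second moments

Among sets of given volume in a Euclidean space the centred ball has the least second moment.  It is
used twice: for bodies in `E 6` (with uniqueness) and for their five-dimensional sections.
-/

namespace Vale.Agent.P237.Six

open MeasureTheory Set Filter Topology Metric
open scoped Pointwise RealInnerProductSpace ENNReal

section General

variable {F : Type*} [NormedAddCommGroup F] [InnerProductSpace ℝ F] [FiniteDimensional ℝ F]
  [MeasurableSpace F] [BorelSpace F]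

/-- The second moment of a centred ball. -/
lemma integral_ball_normSq {d : ℕ} (hd : Module.finrank ℝ F = d + 1) {r : ℝ} (hr : 0 ≤ r) :
    ∫ x in closedBall (0 : F) r, ‖x‖ ^ 2 =
      ((d : ℝ) + 1) / ((d : ℝ) + 3) * volume.real (closedBall (0 : F) 1) * r ^ (d + 3) := by
  have : Nontrivial F := Module.nontrivial_of_finrank_eq_succ hd
  have h : ∀ x : F, (closedBall (0 : F) r).indicator (fun x => ‖x‖ ^ 2) x =
      (fun s : ℝ => (Iic r).indicator (fun s => s ^ 2) s) ‖x‖ := by
    intro x
    by_cases hx : ‖x‖ ≤ r <;> simp [hx]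
  rw [← integral_indicator isClosed_closedBall.measurableSet, funext h,
    integral_fun_norm_addHaar volume (fun s : ℝ => (Iic r).indicator (fun s => s ^ 2) s), hd,
    show volume.real (ball (0 : F) 1) = volume.real (closedBall (0 : F) 1) from
      congrArg ENNReal.toReal (Measure.addHaar_closedBall_eq_addHaar_ball volume (0 : F) 1).symm]
  simp only [nsmul_eq_mul, smul_eq_mul, Nat.add_sub_cancel]
  have h2 : ∀ y : ℝ, y ^ d * (Iic r).indicator (fun s => s ^ 2) y =
      (Iic r).indicator (fun s => s ^ (d + 2)) y := by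
    intro y
    by_cases hy : y ≤ r
    · simp [hy]; ring
    · simp [hy]
  simp only [h2]
  rw [setIntegral_indicator measurableSet_Iic, Ioi_inter_Iic,
    ← intervalIntegral.integral_of_le hr, integral_pow]
  push_cast
  rw [zero_pow (by omega), sub_zero]
  field_simp
  ring

omit [InnerProductSpace ℝ F] [FiniteDimensional ℝ F] [MeasurableSpace F] [BorelSpace F] in
lemma sphere_cut_pos {r : ℝ} (hr : 0 ≤ r) {x : F} (hx : x ∉ closedBall (0 : F) r) :
    0 < ‖x‖ ^ 2 - r ^ 2 := by
  simp only [mem_closedBall_zero_iff, not_le] at hx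
  exact sub_pos.2 (pow_lt_pow_left₀ hx hr two_ne_zero)

/-- The moment of a set minus that of the ball of the same volume, as an integral over their
difference. -/
lemma diff_eq {S : Set F} (hS : IsCompact S) {r : ℝ}
    (hV : volume.real S = volume.real (closedBall (0 : F) r)) :
    (∫ x in S \ closedBall 0 r, (‖x‖ ^ 2 - r ^ 2)) -
        (∫ x in closedBall 0 r \ S, (‖x‖ ^ 2 - r ^ 2)) =
      (∫ x in S, ‖x‖ ^ 2) - ∫ x in closedBall (0 : F) r, ‖x‖ ^ 2 := by
  set B := closedBall (0 : F) r
  have hBc : IsCompact B := isCompact_closedBall _ _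
  have hf : ∀ T : Set F, IsCompact T → IntegrableOn (fun x => ‖x‖ ^ 2 - r ^ 2) T := fun T hT =>
    (by fun_prop : Continuous fun x : F => ‖x‖ ^ 2 - r ^ 2).continuousOn.integrableOn_compact hT
  have hval : ∀ T : Set F, IsCompact T →
      ∫ x in T, (‖x‖ ^ 2 - r ^ 2) = (∫ x in T, ‖x‖ ^ 2) - r ^ 2 * volume.real T := by
    intro T hT
    rw [integral_sub
      ((by fun_prop : Continuous fun x : F => ‖x‖ ^ 2).continuousOn.integrableOn_compact hT)
      (integrableOn_const hT.measure_lt_top.ne)]
    simp [Measure.real, mul_comm]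
  have e1 := integral_inter_add_sdiff hBc.isClosed.measurableSet (hf S hS)
  have e2 := integral_inter_add_sdiff hS.isClosed.measurableSet (hf B hBc)
  rw [inter_comm] at e2
  have e3 := hval S hS
  have e4 := hval B hBc
  rw [hV] at e3
  linarith

/-- Among compact sets of the same volume the centred ball has the least second moment. -/
lemma ball_moment_le {S : Set F} (hS : IsCompact S) {r : ℝ} (hr : 0 ≤ r)
    (hV : volume.real S = volume.real (closedBall (0 : F) r)) :
    ∫ x in closedBall (0 : F) r, ‖x‖ ^ 2 ≤ ∫ x in S, ‖x‖ ^ 2 := by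
  have hBm : MeasurableSet (closedBall (0 : F) r) := isClosed_closedBall.measurableSet
  have hSm := hS.isClosed.measurableSet
  have p1 : 0 ≤ ∫ x in S \ closedBall 0 r, (‖x‖ ^ 2 - r ^ 2) :=
    setIntegral_nonneg (hSm.diff hBm) fun x hx => (sphere_cut_pos hr hx.2).le
  have p2 : (∫ x in closedBall 0 r \ S, (‖x‖ ^ 2 - r ^ 2)) ≤ 0 :=
    setIntegral_nonpos (hBm.diff hSm) fun x hx => sub_nonpos.2
      (pow_le_pow_left₀ (norm_nonneg x) (mem_closedBall_zero_iff.1 hx.1) 2)
  linarith [diff_eq hS hV]

/-- A convex body with at most the second moment of the ball of the same volume is that ball. -/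
lemma eq_ball_of_moment_le {K : Set F} (hKc : Convex ℝ K) (hK : IsCompact K)
    (hne : (interior K).Nonempty) {r : ℝ} (hr : 0 < r)
    (hV : volume.real K = volume.real (closedBall (0 : F) r))
    (hle : (∫ x in K, ‖x‖ ^ 2) ≤ ∫ x in closedBall (0 : F) r, ‖x‖ ^ 2) :
    K = closedBall 0 r := by
  set B := closedBall (0 : F) r
  have hBc : IsCompact B := isCompact_closedBall _ _
  have hBm : MeasurableSet B := isClosed_closedBall.measurableSet
  have hKm := hK.isClosed.measurableSet
  have hout : ∀ x ∈ K \ B, 0 < ‖x‖ ^ 2 - r ^ 2 := fun x hx => sphere_cut_pos hr.le hx.2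
  have p1 : 0 ≤ ∫ x in K \ B, (‖x‖ ^ 2 - r ^ 2) :=
    setIntegral_nonneg (hKm.diff hBm) fun x hx => (hout x hx).le
  have p2 : (∫ x in B \ K, (‖x‖ ^ 2 - r ^ 2)) ≤ 0 :=
    setIntegral_nonpos (hBm.diff hKm) fun x hx => sub_nonpos.2
      (pow_le_pow_left₀ (norm_nonneg x) (mem_closedBall_zero_iff.1 hx.1) 2)
  have h0 : ∫ x in K \ B, (‖x‖ ^ 2 - r ^ 2) = 0 := by linarith [diff_eq hK hV]
  rw [setIntegral_eq_zero_iff_of_nonneg_ae
    ((ae_restrict_iff' (hKm.diff hBm)).2 (ae_of_all _ fun x hx => (hout x hx).le))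
    (((by fun_prop : Continuous fun x : F => ‖x‖ ^ 2 - r ^ 2).continuousOn.integrableOn_compact
      hK).mono_set sdiff_subset)] at h0
  have hnull : volume (K \ B) = 0 := by
    rw [EventuallyEq, ae_restrict_iff' (hKm.diff hBm), ae_iff] at h0
    refine measure_mono_null (fun x hx => ?_) h0
    simp only [Pi.zero_apply, mem_ofPred_eq, Classical.not_imp]
    exact ⟨hx, (hout x hx).ne'⟩
  have hKB : K ⊆ B := by
    have hsub : interior K ⊆ B := by
      intro x hx
      by_contra hxB
      have ho : IsOpen (interior K \ B) := isOpen_interior.sdiff isClosed_closedBall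
      exact (ho.measure_pos volume ⟨x, hx, hxB⟩).ne'
        (measure_mono_null (sdiff_subset_sdiff_left interior_subset) hnull)
    calc K = closure (interior K) := by
          rw [hKc.closure_interior_eq_closure_of_nonempty_interior hne,
            hK.isClosed.closure_eq]
      _ ⊆ B := closure_minimal hsub isClosed_closedBall
  refine Subset.antisymm hKB ?_
  have hnull2 : volume (B \ K) = 0 := by
    have he : volume K = volume B :=
      (ENNReal.toReal_eq_toReal_iff' hK.measure_lt_top.ne hBc.measure_lt_top.ne).1 hV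
    rw [measure_sdiff hKB hKm.nullMeasurableSet hK.measure_lt_top.ne, he, tsub_self]
  have hopen : IsOpen (ball (0 : F) r \ K) := isOpen_ball.sdiff hK.isClosed
  have hball : ball (0 : F) r ⊆ K := by
    intro x hx
    by_contra hxK
    exact (hopen.measure_pos volume ⟨x, hx, hxK⟩).ne'
      (measure_mono_null (sdiff_subset_sdiff_left ball_subset_closedBall) hnull2)
  calc B = closure (ball (0 : F) r) := (closure_ball _ hr.ne').symm
    _ ⊆ K := closure_minimal hball hK.isClosed

end General

lemma volume_ball6 (r : ℝ) (hr : 0 ≤ r) :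
    volume (closedBall (0 : E 6) r) = ENNReal.ofReal (Real.pi ^ 3 / 6 * r ^ 6) := by
  rw [InnerProductSpace.volume_closedBall_of_dim_even (k := 3) (by simp),
    finrank_euclideanSpace_fin, ← ENNReal.ofReal_pow hr,
    ← ENNReal.ofReal_mul (pow_nonneg hr 6)]
  congr 1
  norm_num [Nat.factorial]
  ring

lemma vol_ball6 (r : ℝ) (hr : 0 ≤ r) :
    vol (closedBall (0 : E 6) r) = Real.pi ^ 3 / 6 * r ^ 6 := by
  rw [vol, volume_ball6 r hr, ENNReal.toReal_ofReal (by positivity)]

lemma integral_ball6_normSq (r : ℝ) (hr : 0 ≤ r) :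
    ∫ x in closedBall (0 : E 6) r, ‖x‖ ^ 2 = Real.pi ^ 3 / 8 * r ^ 8 := by
  rw [integral_ball_normSq (d := 5) finrank_euclideanSpace_fin hr,
    show volume.real (closedBall (0 : E 6) 1) = vol (closedBall (0 : E 6) 1) from rfl,
    vol_ball6 1 zero_le_one, one_pow]
  push_cast
  ring

/-- A body of volume `π³/6 r⁶` and moment at most `π³/8 r⁸` is the ball of radius `r`. -/
theorem moment_rigid {K : Set (E 6)} (hK : Body K) {r : ℝ} (hr : 0 < r)
    (hV : vol K = Real.pi ^ 3 / 6 * r ^ 6)
    (hS : (∫ x in K, ‖x‖ ^ 2) ≤ Real.pi ^ 3 / 8 * r ^ 8) : K = closedBall 0 r :=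
  eq_ball_of_moment_le hK.convex hK.compact hK.interior_nonempty hr
    (hV.trans (vol_ball6 r hr.le).symm) (by rwa [integral_ball6_normSq r hr.le])

end Vale.Agent.P237.Six
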