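import Vale.Agent.P237.Five.Assembly
import Vale.Agent.P237.Six.Moment

/-!
# P237, `n = 6`: the profile `f = (A / (8π²/15))^(1/5)` of a body in John position

Besides the facts used in dimension five, the second moment of the body is at least that of the
body of revolution of the profile: in every section the centred ball has the least moment.
-/

namespace Vale.Agent.P237.Six

open MeasureTheory Set Filter Topology Metric
open scoped Pointwise RealInnerProductSpace ENNReal

/-- The radius of the five-dimensional ball with the volume of the section. -/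
noncomputable def profile (K : Set (E 6)) (u : E 6) (t : ℝ) : ℝ :=
  (sliceVol K u t / (8 * Real.pi ^ 2 / 15)) ^ (1 / 5 : ℝ)

lemma kappa5_pos : (0 : ℝ) < 8 * Real.pi ^ 2 / 15 := by positivity

lemma volume_ball_perp {u : E 6} (hu : ‖u‖ = 1) (r : ℝ) (hr : 0 ≤ r) :
    volume (closedBall (0 : Perp u) r) = ENNReal.ofReal (8 * Real.pi ^ 2 / 15 * r ^ 5) := by
  obtain ⟨e⟩ := exists_perpIso (n := 5) hu
  have h := e.measurePreserving.measure_preimage
    (s := closedBall (0 : E 5) r) measurableSet_closedBall.nullMeasurableSet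
  rw [show e ⁻¹' closedBall (0 : E 5) r = closedBall 0 r by ext y; simp] at h
  rw [h, Five.volume_ball5 r hr]

lemma real_ball_perp {u : E 6} (hu : ‖u‖ = 1) (r : ℝ) (hr : 0 ≤ r) :
    volume.real (closedBall (0 : Perp u) r) = 8 * Real.pi ^ 2 / 15 * r ^ 5 := by
  rw [Measure.real, volume_ball_perp hu r hr, ENNReal.toReal_ofReal (by positivity)]

lemma profile_nonneg {K : Set (E 6)} {u : E 6} (t : ℝ) : 0 ≤ profile K u t :=
  Real.rpow_nonneg (div_nonneg ENNReal.toReal_nonneg kappa5_pos.le) _

lemma profile_pow_five {K : Set (E 6)} {u : E 6} (t : ℝ) :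
    profile K u t ^ 5 = sliceVol K u t / (8 * Real.pi ^ 2 / 15) := by
  rw [profile, show (1 / 5 : ℝ) = ((5 : ℕ) : ℝ)⁻¹ by norm_num]
  exact Real.rpow_inv_natCast_pow (div_nonneg ENNReal.toReal_nonneg kappa5_pos.le) (by norm_num)

lemma profile_four {K : Set (E 6)} {u : E 6} (t : ℝ) :
    profile K u t ^ 4 = sliceVol K u t ^ ((((5 : ℕ) : ℝ) - 1) / ((5 : ℕ) : ℝ)) /
      (8 * Real.pi ^ 2 / 15) ^ (4 / 5 : ℝ) := by
  have h0 : (0 : ℝ) ≤ sliceVol K u t := ENNReal.toReal_nonneg
  rw [profile, ← Real.rpow_natCast, ← Real.rpow_mul (div_nonneg h0 kappa5_pos.le),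
    Real.div_rpow h0 kappa5_pos.le]
  norm_num

/-- Powers of an even profile that is concave and nonnegative on `[-1, 1]` are integrable. -/
lemma intervalIntegrable_profile {f w : ℝ → ℝ} (hc : ConcaveOn ℝ (Icc (-1 : ℝ) 1) f)
    (he : ∀ t, f (-t) = f t) (h0 : ∀ t, 0 ≤ f t) (hw : Continuous w) (k : ℕ) :
    IntervalIntegrable (fun t => w t * f t ^ k) volume (-1) 1 := by
  have hanti : AntitoneOn f (Icc 0 1) := by
    intro x hx y hy hxy
    have := hc.min_le_of_mem_Icc (x := -y) (y := y) ⟨by linarith [hy.2], by linarith [hy.1]⟩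
      ⟨by linarith [hy.1], hy.2⟩ (z := x) ⟨by linarith [hx.1, hy.1], hxy⟩
    simpa [he] using this
  have hmono : MonotoneOn f (Icc (-1) 0) := by
    intro x hx y hy hxy
    have := hanti (a := -y) ⟨by linarith [hy.2], by linarith [hy.1]⟩ (b := -x)
      ⟨by linarith [hx.2], by linarith [hx.1]⟩ (by linarith)
    simpa [he] using this
  refine IntervalIntegrable.trans (b := 0) ?_ ?_
  · refine IntervalIntegrable.continuousOn_mul ?_ hw.continuousOn
    refine MonotoneOn.intervalIntegrable ?_
    rw [uIcc_of_le (by norm_num)]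
    exact fun x hx y hy hxy => pow_le_pow_left₀ (h0 x) (hmono hx hy hxy) k
  · refine IntervalIntegrable.continuousOn_mul ?_ hw.continuousOn
    refine AntitoneOn.intervalIntegrable ?_
    rw [uIcc_of_le zero_le_one]
    exact fun x hx y hy hxy => pow_le_pow_left₀ (h0 y) (hanti hx hy hxy) k

/-- The second moment of a body is at least that of the body of revolution of its profile. -/
lemma revolution_le {K : Set (E 6)} (hK : IsCompact K) {u : E 6} (hu : ‖u‖ = 1) :
    (∫ t in Icc (-1 : ℝ) 1, 8 * Real.pi ^ 2 / 15 *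
      (t ^ 2 * profile K u t ^ 5 + 5 / 7 * profile K u t ^ 7)) ≤ ∫ x in K, ‖x‖ ^ 2 := by
  have : Nontrivial (Perp u) := Module.nontrivial_of_finrank_eq_succ (finrank_perp (n := 5) hu)
  have hme := measurableEmbedding_perpCoord hu
  set P := perpCoord u ⁻¹' K with hP
  have hPm : MeasurableSet P := hK.isClosed.measurableSet.preimage hme.measurable
  have hint : IntegrableOn (fun p : ℝ × Perp u => p.1 ^ 2 + ‖p.2‖ ^ 2) P := by
    have hx : IntegrableOn (fun x : E 6 => ‖x‖ ^ 2) K :=
      (by fun_prop : Continuous fun x : E 6 => ‖x‖ ^ 2).continuousOn.integrableOn_compact hK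
    have := ((measurePreserving_perpCoord hu).integrableOn_comp_preimage hme).2 hx
    simpa [Function.comp_def, norm_sq_perpCoord hu] using this
  rw [← (measurePreserving_perpCoord hu).setIntegral_preimage_emb hme]
  simp only [norm_sq_perpCoord hu]
  rw [← integral_indicator hPm, ← integral_indicator measurableSet_Icc, Measure.volume_eq_prod,
    integral_prod _ (by simpa [Measure.volume_eq_prod] using hint.integrable_indicator hPm)]
  refine integral_mono_of_nonneg (ae_of_all _ fun t => indicator_nonneg (fun t _ => ?_) t)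
    ((by simpa [Measure.volume_eq_prod] using hint.integrable_indicator hPm :
      Integrable (P.indicator fun p : ℝ × Perp u => p.1 ^ 2 + ‖p.2‖ ^ 2)
        ((volume : Measure ℝ).prod (volume : Measure (Perp u)))).integral_prod_left)
    (ae_of_all _ fun t => ?_)
  · have := profile_nonneg (K := K) (u := u) t
    positivity
  set S : Set (Perp u) := {y | t • u + (y : E 6) ∈ K} with hS
  have hSc : IsCompact S := slice_isCompact hK hu t
  have e : (fun y : Perp u => P.indicator (fun p => p.1 ^ 2 + ‖p.2‖ ^ 2) (t, y)) =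
      S.indicator fun y => t ^ 2 + ‖y‖ ^ 2 := rfl
  simp only [e, integral_indicator hSc.isClosed.measurableSet]
  by_cases ht : t ∈ Icc (-1 : ℝ) 1
  swap
  · rw [indicator_of_notMem ht]
    exact setIntegral_nonneg hSc.isClosed.measurableSet fun y _ => by positivity
  rw [indicator_of_mem ht]
  have hr := profile_nonneg (K := K) (u := u) t
  have hV : volume.real S = volume.real (closedBall (0 : Perp u) (profile K u t)) := by
    rw [real_ball_perp hu _ hr, profile_pow_five, mul_div_cancel₀ _ kappa5_pos.ne']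
    rfl
  have hb := ball_moment_le hSc hr hV
  rw [integral_ball_normSq (d := 4) (finrank_perp (n := 5) hu) hr,
    real_ball_perp hu 1 zero_le_one] at hb
  rw [integral_add (f := fun _ : Perp u => t ^ 2) (g := fun y => ‖y‖ ^ 2)
    (integrableOn_const hSc.measure_lt_top.ne)
    ((by fun_prop : Continuous fun y : Perp u => ‖y‖ ^ 2).continuousOn.integrableOn_compact hSc),
    setIntegral_const, smul_eq_mul, hV, real_ball_perp hu _ hr]
  have hb' : 5 / 7 * (8 * Real.pi ^ 2 / 15) * profile K u t ^ 7 ≤ ∫ y in S, ‖y‖ ^ 2 :=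
    le_of_eq_of_le (by norm_num) hb
  linarith

/-- All that the one-dimensional lemma and the John sum use about the profile. -/
theorem profile_facts
    (hfive : ∀ C : Set (E 5), Body C → 3375 * Real.pi ^ 4 / 16384 * vol C ^ (5 - 1) ≤
      vol (projBody C))
    {K : Set (E 6)} (hK : SymBody K) (hmin : ∀ L : Set (E 6), Body L → R K ≤ R L)
    (hb : closedBall 0 1 ⊆ K) (hK2 : K ⊆ closedBall 0 √6) {u : E 6} (hu : ‖u‖ = 1)
    (h1 : ∀ x ∈ K, ⟪x, u⟫ ≤ 1) :
    ConcaveOn ℝ (Icc (-1 : ℝ) 1) (profile K u) ∧ (∀ t, profile K u (-t) = profile K u t) ∧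
    profile K u 0 ≤ √6 ∧ (∀ t ∈ Icc (-1 : ℝ) 1, √(1 - t ^ 2) ≤ profile K u t) ∧
    (∫ t in (-1 : ℝ)..1, profile K u t ^ 5) = vol K / (8 * Real.pi ^ 2 / 15) ∧
    8 * Real.pi ^ 2 / 15 * ((∫ t in (-1 : ℝ)..1, t ^ 2 * profile K u t ^ 5) +
      5 / 7 * ∫ t in (-1 : ℝ)..1, profile K u t ^ 7) ≤ (∫ x in K, ‖x‖ ^ 2) ∧
    (∫ t in (-1 : ℝ)..1, t ^ 2 * profile K u t ^ 5) =
      (∫ x in K, ⟪x, u⟫ ^ 2) / (8 * Real.pi ^ 2 / 15) ∧
    3375 * Real.pi ^ 4 / 16384 * ((∫ t in (-1 : ℝ)..1, profile K u t ^ 4) ^ 5 /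
      (∫ t in (-1 : ℝ)..1, profile K u t ^ 5) ^ 4) ≤ R K := by
  have hc := kappa5_pos
  have huK : u ∈ K := hb (mem_closedBall_zero_iff.2 hu.le)
  have hA : SliceTop.Adm K u := ⟨hK, hu, h1, huK⟩
  have haff : ∀ t, affSlice K u t = sliceVol K u t := fun t => by
    rw [affSlice, hu, one_smul, inv_one, one_smul]
  obtain ⟨hconc, heven, hnn, hI⟩ := SliceTop.facts (m := 5) (by norm_num) hA
  have hfive' := fun t => profile_pow_five (K := K) (u := u) t
  have hsl : ∀ g : ℝ → ℝ, Continuous g →
      ∫ t in (-1 : ℝ)..1, g t * sliceVol K u t = ∫ x in K, g ⟪x, u⟫ := fun g hg => by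
    have hu0 : u ≠ 0 := by intro h; simp [h] at hu
    have := integral_affSlice hK hu0 h1 hg
    rwa [funext haff, hu, one_pow, one_mul] at this
  have hconc' : ConcaveOn ℝ (Icc (-1 : ℝ) 1) (profile K u) := by
    have h := hconc.smul (inv_nonneg.2 (Real.rpow_nonneg hc.le (1 / 5 : ℝ)))
    refine h.congr fun t _ => ?_
    simp only [profile, smul_eq_mul]
    rw [Real.div_rpow (hnn t) hc.le]
    norm_num
    ring
  have heven' : ∀ t, profile K u (-t) = profile K u t := fun t => by simp only [profile, heven]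
  have hnn' : ∀ t, 0 ≤ profile K u t := fun t => profile_nonneg t
  refine ⟨hconc', heven', ?_, fun t ht => ?_, ?_, ?_, ?_, ?_⟩
  · have hsub : {y : Perp u | (0 : ℝ) • u + (y : E 6) ∈ K} ⊆ closedBall 0 √6 := fun y hy => by
      simpa using hK2 hy
    have h0 : sliceVol K u 0 ≤ 8 * Real.pi ^ 2 / 15 * √6 ^ 5 := by
      refine le_trans (ENNReal.toReal_mono measure_closedBall_lt_top.ne (measure_mono hsub)) ?_
      rw [volume_ball_perp hu √6 (Real.sqrt_nonneg _), ENNReal.toReal_ofReal (by positivity)]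
    refine le_of_pow_le_pow_left₀ (by norm_num : (5 : ℕ) ≠ 0) (Real.sqrt_nonneg _) ?_
    rw [hfive', div_le_iff₀ hc]
    linarith
  · have hq : 0 ≤ 1 - t ^ 2 := by nlinarith [ht.1, ht.2]
    have hsub : closedBall (0 : Perp u) √(1 - t ^ 2) ⊆
        {y : Perp u | t • u + (y : E 6) ∈ K} := fun y hy => by
      refine hb ?_
      rw [mem_closedBall_zero_iff] at hy ⊢
      have h2 := norm_sq_perpCoord hu (t, y)
      change ‖perpCoord u (t, y)‖ ≤ 1
      have h3 := pow_le_pow_left₀ (norm_nonneg y) hy 2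
      rw [Real.sq_sqrt hq] at h3
      nlinarith [norm_nonneg (perpCoord u (t, y))]
    have h0 := ENNReal.toReal_mono (slice_isCompact hK.toBody.compact hu t).measure_lt_top.ne
      (measure_mono (μ := volume) hsub)
    rw [volume_ball_perp hu _ (Real.sqrt_nonneg _), ENNReal.toReal_ofReal (by positivity)] at h0
    refine le_of_pow_le_pow_left₀ (by norm_num : (5 : ℕ) ≠ 0) (profile_nonneg t) ?_
    rw [hfive', le_div_iff₀ hc]
    rw [sliceVol] at *
    linarith
  · simp only [hfive', intervalIntegral.integral_div, hI]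
  · refine le_of_eq_of_le ?_ (revolution_le hK.toBody.compact hu)
    have i5 := intervalIntegrable_profile hconc' heven' hnn' (w := fun t => t ^ 2) (by fun_prop) 5
    have i7 := intervalIntegrable_profile hconc' heven' hnn' (w := fun _ => 5 / 7) (by fun_prop) 7
    rw [integral_Icc_eq_integral_Ioc, ← intervalIntegral.integral_of_le (by norm_num),
      intervalIntegral.integral_const_mul, intervalIntegral.integral_add i5 i7,
      intervalIntegral.integral_const_mul]
  · simp only [hfive', ← mul_div_assoc, intervalIntegral.integral_div]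
    rw [hsl (fun t => t ^ 2) (by fun_prop)]
  · have hbound := affine_slice_bound hyps.toDualityHyps hyps.pvProj hyps.basic hyps.projBody
      (m := 5) (by norm_num) (r := 3375 * Real.pi ^ 4 / 16384) (by positivity) hfive hK
      hmin h1 huK (by rw [real_inner_self_eq_norm_sq, hu]; norm_num)
    simp only [haff] at hbound
    refine le_of_eq_of_le ?_ hbound
    simp only [profile_four, hfive', intervalIntegral.integral_div, Nat.reduceSub, div_pow]
    rw [← Real.rpow_natCast ((8 * Real.pi ^ 2 / 15) ^ (4 / 5 : ℝ)) 5, ← Real.rpow_mul hc.le]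
    norm_num
    field_simp
    ring

end Vale.Agent.P237.Six
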