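import Vale.Agent.P237.Six.Key
import Vale.Agent.P237.Six.Profile

/-!
# P237, `n = 6`: Petty's inequality with equality case, from the one-dimensional lemma

With `i, v, τ, w` the integrals of `f⁴, f⁵, t² f⁵, f⁷` divided by their values for the circle, the
slice bound (fed by the five-dimensional inequality) is `R ≥ (4194304/140625) i⁵/v⁴`, and the body
of revolution of each profile gives `τ + 5w ≤ M`, with `M` the normalised second moment.  If
`R ≤ 4194304/140625`, then `i^(5/4) ≤ v` at every contact point, the one-dimensional lemma gives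
`τ ≤ (1 - l) w + l v^(4/3)` with `l = 1/200`, and the John sum gives `M ≤ 6 v^(4/3)`.
-/

namespace Vale.Agent.P237.Six

open MeasureTheory Set Filter Topology Metric
open scoped Pointwise RealInnerProductSpace ENNReal

/-- The five-dimensional inequality fed to the slice bound. -/
def PettyFiveVol : Prop :=
  ∀ C : Set (E 5), Body C → 3375 * Real.pi ^ 4 / 16384 * vol C ^ (5 - 1) ≤ vol (projBody C)

/-- The five-dimensional inequality from its one-dimensional lemma. -/
theorem pettyFiveVol_of (h : Five.OneDimFive) : PettyFiveVol := fun C hC => by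
  obtain ⟨-, h2, -⟩ := Five.petty_five h C hC.convex hC.compact hC.interior_nonempty
  rwa [projectionBody_eq hyps (by norm_num : (2 : ℕ) ≤ 5) hC] at h2

/-- A symmetric minimiser in John position with `R ≤ 4194304/140625` is the ball. -/
lemma john_ball (hfive : PettyFiveVol) (h1d : OneDimSix) {K : Set (E 6)}
    (hK : SymBody K) (hmin : ∀ L : Set (E 6), Body L → R K ≤ R L)
    (hb : closedBall 0 1 ⊆ K) {N : ℕ} {u : Fin N → E 6} {c : Fin N → ℝ}
    (hc : ∀ i, 0 ≤ c i) (hu : ∀ i, ‖u i‖ = 1) (hle : ∀ i, ∀ x ∈ K, ⟪x, u i⟫ ≤ 1)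
    (hsum : ∀ x : E 6, ∑ i, c i * ⟪x, u i⟫ ^ 2 = ‖x‖ ^ 2) (hR : R K ≤ 4194304 / 140625) :
    K = closedBall 0 1 := by
  have hpi := Real.pi_pos
  have hK2 : K ⊆ closedBall 0 √6 := by
    simpa using john_norm_le hK.neg_mem hc hu hle hsum
  have hV0 : 0 < vol K := hK.toBody.vol_pos
  set v := vol K / (Real.pi ^ 3 / 6) with hv
  have hv0 : 0 < v := by positivity
  set M := ∫ x in K, ‖x‖ ^ 2 with hM0
  -- every contact point
  have key : ∀ i, (5 + 199 / 200 : ℝ) * (∫ x in K, ⟪x, u i⟫ ^ 2) ≤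
      199 / 200 * M + 5 / 200 * (Real.pi ^ 3 / 48) * v ^ (4 / 3 : ℝ) := by
    intro i
    obtain ⟨h1, h2, h3, h4, h5, h6, h7, h8⟩ := profile_facts hfive hK hmin hb hK2 (hu i) (hle i)
    have h := h1d _ h1 h2 (h3.trans (Real.sqrt_le_iff.2 ⟨by norm_num, by norm_num⟩)) h4
    set W := (∫ t in (-1 : ℝ)..1, profile K (u i) t ^ 7) / (35 * Real.pi / 128) with hW
    set I := (∫ t in (-1 : ℝ)..1, profile K (u i) t ^ 4) / (16 / 15) with hI
    have hI0 : 0 ≤ I := div_nonneg
      (intervalIntegral.integral_nonneg (by norm_num) fun t _ => pow_nonneg (profile_nonneg t) 4)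
      (by positivity)
    have hv' : vol K / (8 * Real.pi ^ 2 / 15) / (5 * Real.pi / 16) = v := by
      rw [hv]; field_simp; ring
    rw [h5, h7, hv'] at h
    have h8' : 4194304 / 140625 * (I ^ 5 / v ^ 4) ≤ R K := by
      refine le_of_eq_of_le ?_ h8
      rw [hI, h5, ← hv']
      field_simp
      ring
    have hX : I ^ (5 / 4 : ℝ) ≤ v := by
      have hpow : I ^ 5 ≤ v ^ 4 := by
        have h9 := h8'.trans hR
        exact (div_le_one (pow_pos hv0 4)).1 (le_of_mul_le_mul_left (by linarith)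
          (by norm_num : (0 : ℝ) < 4194304 / 140625))
      refine le_of_pow_le_pow_left₀ four_ne_zero hv0.le ?_
      rwa [← Real.rpow_natCast (I ^ (5 / 4 : ℝ)), ← Real.rpow_mul hI0,
        show (5 / 4 : ℝ) * ((4 : ℕ) : ℝ) = ((5 : ℕ) : ℝ) by norm_num, Real.rpow_natCast]
    have h10 := h hX
    have eW : (∫ t in (-1 : ℝ)..1, profile K (u i) t ^ 7) = 35 * Real.pi / 128 * W := by
      rw [hW]; field_simp
    rw [h7, eW] at h6
    set T := (∫ x in K, ⟪x, u i⟫ ^ 2) with hT
    have e6 : 8 * Real.pi ^ 2 / 15 * (T / (8 * Real.pi ^ 2 / 15) + 5 / 7 * (35 * Real.pi / 128 * W))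
        = T + 5 * (Real.pi ^ 3 / 48) * W := by
      field_simp; ring
    have e10 : T / (8 * Real.pi ^ 2 / 15) / (5 * Real.pi / 128) = T / (Real.pi ^ 3 / 48) := by
      field_simp; ring
    rw [e6] at h6
    rw [e10, div_le_iff₀ (by positivity)] at h10
    linarith
  -- the John sum
  have hM : ∀ i, Integrable (fun x : E 6 => ⟪x, u i⟫ ^ 2) (volume.restrict K) := fun i =>
    (by fun_prop : Continuous fun x : E 6 => ⟪x, u i⟫ ^ 2).continuousOn.integrableOn_compact
      hK.toBody.compact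
  have hsumM : ∑ i, c i * ∫ x in K, ⟪x, u i⟫ ^ 2 = M := by
    simp only [hM0, ← hsum, ← integral_const_mul]
    rw [integral_finsetSum _ fun i _ => (hM i).const_mul _]
  have hw : ∑ i, c i = 6 := by rw [john_weight hu hsum]; norm_num
  have hS : M ≤ Real.pi ^ 3 / 8 * v ^ (4 / 3 : ℝ) := by
    have hs := Finset.sum_le_sum (s := Finset.univ)
      fun i _ => mul_le_mul_of_nonneg_left (key i) (hc i)
    rw [← Finset.sum_mul, hw] at hs
    have : ∑ i, c i * ((5 + 199 / 200) * ∫ x in K, ⟪x, u i⟫ ^ 2) = (5 + 199 / 200) * M := by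
      rw [← hsumM, Finset.mul_sum]
      exact Finset.sum_congr rfl fun i _ => by ring
    linarith
  -- the ball of the same volume
  set r := v ^ (1 / 6 : ℝ) with hr
  have hr0 : 0 < r := Real.rpow_pos_of_pos hv0 _
  have hr6 : r ^ 6 = v := by
    rw [hr, show (1 / 6 : ℝ) = ((6 : ℕ) : ℝ)⁻¹ by norm_num]
    exact Real.rpow_inv_natCast_pow hv0.le (by norm_num)
  have hr8 : r ^ 8 = v ^ (4 / 3 : ℝ) := by
    rw [hr, ← Real.rpow_natCast, ← Real.rpow_mul hv0.le]
    norm_num
  have hKr := moment_rigid hK.toBody hr0 (by rw [hr6, hv]; field_simp) (by rw [hr8]; exact hS)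
  obtain ⟨i, -⟩ : ∃ i : Fin N, True := by
    rcases isEmpty_or_nonempty (Fin N) with h | ⟨⟨i⟩⟩
    · simp at hw
    · exact ⟨i, trivial⟩
  have hr1 : r ≤ 1 := by
    have hmem : r • u i ∈ K := by
      rw [hKr, mem_closedBall_zero_iff, norm_smul, hu i, mul_one, Real.norm_of_nonneg hr0.le]
    have := hle i _ hmem
    rwa [real_inner_smul_left, real_inner_self_eq_norm_sq, hu i, one_pow, mul_one] at this
  exact Subset.antisymm (hKr ▸ closedBall_subset_closedBall hr1) hb

lemma pv_ball6 (v : E 6) : pv (closedBall 0 1) v = 8 * Real.pi ^ 2 / 15 * ‖v‖ := by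
  have hB : Body (closedBall (0 : E 6) 1) :=
    body_of_ball_subset (convex_closedBall _ _) (isCompact_closedBall _ _) subset_rfl
  rw [hyps.pvProj 6 _ v (by norm_num) hB]
  rcases eq_or_ne v 0 with rfl | hv
  · simp
  set u := ‖v‖⁻¹ • v with hu
  have hu1 : ‖u‖ = 1 := norm_smul_inv_norm hv
  have himg : (Perp u).orthogonalProjectionOnto '' closedBall (0 : E 6) 1 = closedBall 0 1 := by
    ext y
    constructor
    · rintro ⟨x, hx, rfl⟩
      rw [mem_closedBall_zero_iff] at hx ⊢
      exact ((Perp u).norm_orthogonalProjectionOnto_apply_le x).trans hx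
    · intro hy
      refine ⟨(y : E 6), by simpa using hy, ?_⟩
      exact Submodule.orthogonalProjectionOnto_mem_subspace_eq_self y
  rw [projVol, himg, volume_ball_perp hu1 1 zero_le_one, ENNReal.toReal_ofReal (by positivity)]
  ring

lemma projBody_ball6 :
    projBody (closedBall (0 : E 6) 1) = (8 * Real.pi ^ 2 / 15) • closedBall 0 1 := by
  have hc := kappa5_pos
  ext y
  rw [mem_smul_set_iff_inv_smul_mem₀ hc.ne', mem_closedBall_zero_iff, norm_smul,
    Real.norm_of_nonneg (inv_nonneg.2 hc.le), inv_mul_le_iff₀ hc, mul_one]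
  simp only [projBody, mem_ofPred_eq, pv_ball6]
  constructor
  · intro h
    have := h y
    rw [real_inner_self_eq_norm_mul_norm] at this
    rcases eq_or_lt_of_le (norm_nonneg y) with h0 | h0
    · rw [← h0]; exact hc.le
    · exact le_of_mul_le_mul_right (by linarith) h0
  · intro h v
    exact (real_inner_le_norm y v).trans (mul_le_mul_of_nonneg_right h (norm_nonneg v))

lemma R_ball6 : R (closedBall (0 : E 6) 1) = 4194304 / 140625 := by
  rw [R, projBody_ball6, vol_smul, vol_ball6 1 zero_le_one, abs_of_pos kappa5_pos,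
    show (6 : ℕ) - 1 = 5 from rfl]
  field_simp
  ring

/-- Every symmetric minimiser has `R ≥ 4194304/140625`, with equality only for ellipsoids. -/
lemma symm_minimizer6 (hfive : PettyFiveVol) (h1d : OneDimSix) {K : Set (E 6)}
    (hK : SymBody K) (hmin : ∀ L : Set (E 6), Body L → R K ≤ R L) :
    4194304 / 140625 ≤ R K ∧
    (R K ≤ 4194304 / 140625 → ∃ T : E 6 ≃L[ℝ] E 6, K = T '' closedBall 0 1) := by
  obtain ⟨T, N, u, c, hb, hc, hu, hle, hsum⟩ := hyps.john 6 K (by norm_num) hK
  have hRT := R_image (by norm_num : 1 ≤ 6) T K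
  have h := john_ball hfive h1d (hK.image T) (fun L hL => hRT ▸ hmin L hL) hb hc hu hle hsum
  refine ⟨?_, fun hR => ⟨T.symm, ?_⟩⟩
  · by_contra! hlt
    have := h (hRT ▸ hlt.le)
    rw [this, R_ball6] at hRT
    linarith
  · rw [← h (hRT ▸ hR), T.symm_image_image]

/-- Petty's inequality in dimension six. -/
theorem petty_ge6 (hfive : PettyFiveVol) (h1d : OneDimSix) {K : Set (E 6)} (hK : Body K) :
    4194304 / 140625 ≤ R K := by
  obtain ⟨M, hM, hmin⟩ := exists_minimizer hyps.toDualityHyps hyps.john (by norm_num : 2 ≤ 6)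
  exact (symm_minimizer6 hfive h1d hM.1 hmin).1.trans (hmin K hK)

/-- The equality case. -/
theorem petty_eq_iff6 (hfive : PettyFiveVol) (h1d : OneDimSix) {K : Set (E 6)}
    (hK : Body K) :
    R K = 4194304 / 140625 ↔
      ∃ (x : E 6) (T : E 6 ≃L[ℝ] E 6), K = (fun y => x + T y) '' closedBall 0 1 := by
  have haff : ∀ (x : E 6) (T : E 6 ≃L[ℝ] E 6) (s : Set (E 6)),
      (fun y => x + T y) '' s = x +ᵥ T '' s := fun x T s => by
    rw [← image_vadd, image_image]
    rfl
  constructor
  · intro hR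
    obtain ⟨hP, -⟩ := hyps.projBody 6 K (by norm_num) hK
    have hle := R_projBody_le hyps.toDualityHyps (by norm_num) hK
    have hmin : ∀ L : Set (E 6), Body L → R (projBody K) ≤ R L := fun L hL =>
      hle.trans (hR ▸ petty_ge6 hfive h1d hL)
    obtain ⟨T, hT⟩ := (symm_minimizer6 hfive h1d hP hmin).2 (hR ▸ hle)
    obtain ⟨x, hx⟩ := eq_of_R_le hyps.toDualityHyps (by norm_num) hK
      (hR ▸ petty_ge6 hfive h1d hP.toBody)
    have hd : (0 : ℝ) < |LinearMap.det T.toLinearEquiv.toLinearMap| :=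
      abs_pos.2 (det_ne_zero' T)
    set L := T.toLinearEquiv.toLinearMap with hL
    let A : E 6 ≃L[ℝ] E 6 := (LinearEquiv.ofIsUnitDet
      (f := LinearMap.adjoint L) (v := (EuclideanSpace.basisFun (Fin 6) ℝ).toBasis)
      (v' := (EuclideanSpace.basisFun (Fin 6) ℝ).toBasis) (by
        rw [LinearMap.det_toMatrix, det_adjoint]
        exact T.toLinearEquiv.isUnit_det')).toContinuousLinearEquiv
    have hA : A '' projBody (projBody K) =
        (|LinearMap.det L| * (8 * Real.pi ^ 2 / 15)) • closedBall (0 : E 6) 1 := by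
      rw [hT, show (A : E 6 → E 6) = LinearMap.adjoint L from rfl, hL, projBody_image,
        projBody_ball6, smul_smul]
    have hne : |LinearMap.det L| * (8 * Real.pi ^ 2 / 15) ≠ 0 := (mul_pos hd kappa5_pos).ne'
    set s := vol K / vol (projBody K) with hs
    have hs0 : s ≠ 0 := (div_pos hK.vol_pos hP.toBody.vol_pos).ne'
    refine ⟨x, (dil _ hne).trans (A.symm.trans (dil s hs0)), ?_⟩
    rw [haff, hx]
    congr 1
    have hA' := congrArg (A.symm '' ·) hA
    simp only [A.symm_image_image] at hA'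
    rw [hA']
    rw [← dil_image _ hne, ← dil_image s hs0, image_image, image_image]
    rfl
  · rintro ⟨x, T, rfl⟩
    rw [haff, R_vadd, R_image (by norm_num), R_ball6]

/-- An ellipsoid in `E 6`: an affine image of the closed unit ball. -/
def IsEllipsoid6 (K : Set (E 6)) : Prop :=
  ∃ (x : E 6) (T : E 6 ≃L[ℝ] E 6), K = (fun y => x + T y) '' closedBall 0 1

/-- The public form. -/
theorem petty_six (hfive : PettyFiveVol) (h1d : OneDimSix) (K : Set (E 6))
    (hc : Convex ℝ K) (hk : IsCompact K) (hi : (interior K).Nonempty) :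
    (∀ u : E 6, ‖u‖ = 1 →
      IsGreatest ((fun y => ⟪y, u⟫) '' ProjectionBody K) (shadow K u)) ∧
    4194304 / 140625 * (volume K).toReal ^ 5 ≤ (volume (ProjectionBody K)).toReal ∧
    ((volume (ProjectionBody K)).toReal = 4194304 / 140625 * (volume K).toReal ^ 5 ↔
      IsEllipsoid6 K) := by
  have hK : Body K := ⟨hc, hk, hi⟩
  have hn : (2 : ℕ) ≤ 6 := by norm_num
  rw [projectionBody_eq hyps hn hK]
  have hp : (0 : ℝ) < vol K ^ 5 := pow_pos hK.vol_pos 5
  refine ⟨fun u hu => ?_, (le_div_iff₀ hp).1 (petty_ge6 hfive h1d hK), ?_⟩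
  · simp only [shadow_eq]
    have := (hyps.projBody 6 K hn hK).2 u
    rwa [hyps.pvProj 6 K u hn hK, hu, inv_one, one_smul, one_mul] at this
  · rw [IsEllipsoid6, ← petty_eq_iff6 hfive h1d hK]
    exact (div_eq_iff hp.ne').symm

end Vale.Agent.P237.Six
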