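import Vale.Agent.P237.Five.Key

/-!
# P237, `n = 6`: statements shared by the modules

The one-dimensional lemma `OneDimSix` for the profile of a body at a contact point, and `KeySix`,
the inequality in `(s, r)` and the unknown part `g` of the profile on `[0, t]` that makes both
potentials nondecreasing along the tangent homotopy. With `c = v^(1/5)`, `a = i^(1/4)`, `l = 1/200`
the potentials are `(1-l) w + l v^(4/3) + (921/50 + 7/2 c)(i - c⁴) - τ` for `i^(5/4) ≤ v` and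
`(1-l) w + l i^(5/3) + (32 a - 14)(a⁵ - v) - τ` otherwise.
-/

namespace Vale.Agent.P237.Six

open MeasureTheory Set Real
open Five (footT endY)

/-- The one-dimensional lemma: with `i, v, τ, w` the integrals of `f⁴, f⁵, t² f⁵, f⁷` divided by
their values for the circle, `i^(5/4) ≤ v` implies `τ ≤ (199/200) w + (1/200) v^(4/3)`. -/
def OneDimSix : Prop :=
  ∀ f : ℝ → ℝ, ConcaveOn ℝ (Icc (-1 : ℝ) 1) f → (∀ t, f (-t) = f t) → f 0 ≤ 49 / 20 →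
    (∀ t ∈ Icc (-1 : ℝ) 1, √(1 - t ^ 2) ≤ f t) →
    ((∫ t in (-1 : ℝ)..1, f t ^ 4) / (16 / 15)) ^ (5 / 4 : ℝ) ≤
      (∫ t in (-1 : ℝ)..1, f t ^ 5) / (5 * Real.pi / 16) →
    (∫ t in (-1 : ℝ)..1, t ^ 2 * f t ^ 5) / (5 * Real.pi / 128) ≤
      199 / 200 * ((∫ t in (-1 : ℝ)..1, f t ^ 7) / (35 * Real.pi / 128)) +
        1 / 200 * ((∫ t in (-1 : ℝ)..1, f t ^ 5) / (5 * Real.pi / 16)) ^ (4 / 3 : ℝ)

/-- `∫₀¹ σ Lᵏ` for `k = 3`, with `L = s + (1 - s²) r σ`. -/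
noncomputable def segI (s r : ℝ) : ℝ := Five.segV s r

/-- `∫₀¹ σ L⁴`. -/
noncomputable def segV (s r : ℝ) : ℝ :=
  s ^ 4 / 2 + 4 * (1 - s ^ 2) * s ^ 3 * r / 3 + 3 * (1 - s ^ 2) ^ 2 * s ^ 2 * r ^ 2 / 2
    + 4 * (1 - s ^ 2) ^ 3 * s * r ^ 3 / 5 + (1 - s ^ 2) ^ 4 * r ^ 4 / 6

/-- `(1 - s²) ∫₀¹ σ L⁴ (1 - s r σ)²`. -/
noncomputable def segT (s r : ℝ) : ℝ :=
  (1 - s ^ 2) * (segV s r
    - 2 * s * r * (s ^ 4 / 3 + (1 - s ^ 2) * s ^ 3 * r + 6 * (1 - s ^ 2) ^ 2 * s ^ 2 * r ^ 2 / 5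
        + 2 * (1 - s ^ 2) ^ 3 * s * r ^ 3 / 3 + (1 - s ^ 2) ^ 4 * r ^ 4 / 7)
    + s ^ 2 * r ^ 2 * (s ^ 4 / 4 + 4 * (1 - s ^ 2) * s ^ 3 * r / 5
        + (1 - s ^ 2) ^ 2 * s ^ 2 * r ^ 2 + 4 * (1 - s ^ 2) ^ 3 * s * r ^ 3 / 7
        + (1 - s ^ 2) ^ 4 * r ^ 4 / 8))

/-- `∫₀¹ σ L⁶`. -/
noncomputable def segW (s r : ℝ) : ℝ :=
  s ^ 6 / 2 + 2 * (1 - s ^ 2) * s ^ 5 * r + 15 * (1 - s ^ 2) ^ 2 * s ^ 4 * r ^ 2 / 4
    + 4 * (1 - s ^ 2) ^ 3 * s ^ 3 * r ^ 3 + 5 * (1 - s ^ 2) ^ 4 * s ^ 2 * r ^ 4 / 2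
    + 6 * (1 - s ^ 2) ^ 5 * s * r ^ 5 / 7 + (1 - s ^ 2) ^ 6 * r ^ 6 / 8

/-- `∫₀¹ L⁴`. -/
noncomputable def lineI (s r : ℝ) : ℝ := Five.lineV s r

/-- `∫₀¹ L⁵`. -/
noncomputable def lineV (s r : ℝ) : ℝ :=
  s ^ 5 + 5 * (1 - s ^ 2) * s ^ 4 * r / 2 + 10 * (1 - s ^ 2) ^ 2 * s ^ 3 * r ^ 2 / 3
    + 5 * (1 - s ^ 2) ^ 3 * s ^ 2 * r ^ 3 / 2 + (1 - s ^ 2) ^ 4 * s * r ^ 4
    + (1 - s ^ 2) ^ 5 * r ^ 5 / 6

/-- `∫_b^1 (1 - x²)²` at `b = √(1 - s²)`. -/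
noncomputable def capI (s : ℝ) : ℝ := Five.capV s

/-- `∫_b^1 (1 - x²)^(5/2)` at `b = √(1 - s²)`. -/
noncomputable def capV (s : ℝ) : ℝ := ∫ x in √(1 - s ^ 2)..1, √(1 - x ^ 2) ^ 5

/-- The normalised `∫F⁴`, if the part on `[0, t]` is `j`. -/
noncomputable def stateI (s r j : ℝ) : ℝ :=
  15 / 8 * (j + √(1 - s ^ 2) * s * r * lineI s r + capI s)

/-- The normalised `∫F⁵`, if the part on `[0, t]` is `j`. -/
noncomputable def stateV (s r j : ℝ) : ℝ :=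
  32 / (5 * π) * (j + √(1 - s ^ 2) * s * r * lineV s r + capV s)

/-- Derivative of `(1-l) w + l v^(4/3) + (921/50 + 7/2 c)(i - c⁴) - τ`, up to a positive factor:
the derivatives of `i, v, w, τ` are `15/2 segI, 32/π segV, 256/(5π) segW, 256/π segT`, and
everything is multiplied by `π/32`. -/
noncomputable def derLow (s r i v : ℝ) : ℝ :=
  (921 / 50 + 7 / 2 * v ^ (1 / 5 : ℝ)) * (15 * π / 64 * segI s r)
    + (-(7 / 2) - 1842 / 125 * v ^ (-(1 / 5) : ℝ) + 7 / 10 * i * v ^ (-(4 / 5) : ℝ)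
        + 1 / 150 * v ^ (1 / 3 : ℝ)) * segV s r
    + 199 / 125 * segW s r - 8 * segT s r

/-- Derivative of `(1-l) w + l i^(5/3) + (32 a - 14)(a⁵ - v) - τ`, up to the same factor. -/
noncomputable def derHigh (s r i v : ℝ) : ℝ :=
  (48 * i ^ (1 / 2 : ℝ) - 35 / 2 * i ^ (1 / 4 : ℝ) - 8 * v * i ^ (-(3 / 4) : ℝ)
      + 1 / 120 * i ^ (2 / 3 : ℝ)) * (15 * π / 64 * segI s r)
    + (14 - 32 * i ^ (1 / 4 : ℝ)) * segV s r + 199 / 125 * segW s r - 8 * segT s r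

/-- What is known about the profile on `[0, t]`. -/
structure Head (s r : ℝ) (g : ℝ → ℝ) : Prop where
  conc : ConcaveOn ℝ (Icc 0 (footT s r)) g
  anti : AntitoneOn g (Icc 0 (footT s r))
  one_le : 1 ≤ g 0
  le_top : g 0 ≤ 49 / 20
  end_le : endY s r ≤ g (footT s r)
  circle : ∀ z ∈ Icc 0 (footT s r), √(1 - z ^ 2) ≤ g z

/-- The certified inequality. -/
def KeySix : Prop :=
  ∀ (s r : ℝ) (g : ℝ → ℝ), 0 < s → s ≤ 1 → 0 ≤ r → s * r ≤ 1 → endY s r ≤ 49 / 20 →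
    Head s r g →
    let i := stateI s r (∫ z in (0 : ℝ)..footT s r, g z ^ 4)
    let v := stateV s r (∫ z in (0 : ℝ)..footT s r, g z ^ 5)
    (i ^ (5 / 4 : ℝ) ≤ v → 0 ≤ derLow s r i v) ∧ (v ≤ i ^ (5 / 4 : ℝ) → 0 ≤ derHigh s r i v)

end Vale.Agent.P237.Six
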