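import Vale.Agent.P237.Five.Bounds
import Vale.Agent.P237.Six.Key

/-!
# P237, `n = 6`: polynomial bounds for the integrals of the circle

`circU x = ∫₀ˣ (1 - z²)^(5/2)` lies between `x * serL (x²)` and `x * serU (x²)`; `capV s` lies
between two truncations of its power series in `s`.
-/

namespace Vale.Agent.P237.Six.Cert

open MeasureTheory Set Real intervalIntegral
open Five.Cert (cube_ge series_low series_high)

/-- `∫₀ˣ (1 - z²)^(5/2)`. -/
noncomputable def circU (x : ℝ) : ℝ := ∫ z in (0 : ℝ)..x, √(1 - z ^ 2) ^ 5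

/-- Upper bound for `circU x / x` at `u = x²`. -/
noncomputable def serU (u : ℝ) : ℝ :=
  1 - 5 / 6 * u + 3 / 8 * u ^ 2 - 5 / 112 * u ^ 3 - 5 / 1152 * u ^ 4

/-- Lower bound for `circU x / x` at `u = x²`. -/
noncomputable def serL (u : ℝ) : ℝ :=
  1 - 5 / 6 * u + 3 / 8 * u ^ 2 - 5 / 112 * u ^ 3 - 1 / 144 * u ^ 4

/-- Truncated series of `capV`. -/
noncomputable def serC (s : ℝ) : ℝ :=
  s ^ 7 / 7 + s ^ 9 / 18 + 3 / 88 * s ^ 11 + 5 / 208 * s ^ 13

lemma quint_le {u : ℝ} (h0 : 0 ≤ u) (h1 : u ≤ 1) :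
    √(1 - u) ^ 5 ≤ 1 - 5 / 2 * u + 15 / 8 * u ^ 2 - 5 / 16 * u ^ 3 - 5 / 128 * u ^ 4 := by
  have hq := sq_sqrt (show 0 ≤ 1 - u by linarith)
  set p := 1 - 5 / 2 * u + 15 / 8 * u ^ 2 - 5 / 16 * u ^ 3 - 5 / 128 * u ^ 4 with hp
  have hk : (0 : ℝ) ≤ 384 - 800 * u + 400 * u ^ 2 + 25 * u ^ 3 := by
    nlinarith [sq_nonneg (u - 9 / 10), mul_nonneg h0 (sq_nonneg (u - 9 / 10)),
      sq_nonneg (u - 1)]
  have hp0 : 0 ≤ p := by
    rw [hp]
    nlinarith [sq_nonneg (1 - u), mul_nonneg h0 (sq_nonneg (1 - u)),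
      mul_nonneg (mul_nonneg h0 h0) (sub_nonneg.2 h1),
      mul_nonneg (mul_nonneg h0 h0) (sq_nonneg (1 - u)), pow_le_one₀ h0 h1 (n := 2),
      pow_le_one₀ h0 h1 (n := 3), pow_le_one₀ h0 h1 (n := 4)]
  have key : (√(1 - u) ^ 5) ^ 2 ≤ p ^ 2 := by
    rw [← pow_mul, show 5 * 2 = 2 * 5 from rfl, pow_mul, hq, hp]
    nlinarith [mul_nonneg (pow_nonneg h0 5) hk]
  exact le_of_pow_le_pow_left₀ two_ne_zero hp0 key

lemma quint_ge {u : ℝ} (h0 : 0 ≤ u) (h1 : u ≤ 1) :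
    1 - 5 / 2 * u + 15 / 8 * u ^ 2 - 5 / 16 * u ^ 3 - 1 / 16 * u ^ 4 ≤ √(1 - u) ^ 5 := by
  have hq := sq_sqrt (show 0 ≤ 1 - u by linarith)
  have h : 1 - 3 / 2 * u + 3 / 8 * u ^ 2 + 1 / 16 * u ^ 3 ≤ √(1 - u) ^ 3 :=
    le_trans (by nlinarith [pow_nonneg h0 4]) (cube_ge h0 h1)
  rw [show √(1 - u) ^ 5 = √(1 - u) ^ 2 * √(1 - u) ^ 3 by ring, hq]
  refine le_trans (le_of_eq ?_) (mul_le_mul_of_nonneg_left h (by linarith))
  ring

lemma cont_circle : Continuous fun z : ℝ => √(1 - z ^ 2) ^ 5 := by fun_prop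

lemma circU_le {x : ℝ} (h0 : 0 ≤ x) (h1 : x ≤ 1) : circU x ≤ x * serU (x ^ 2) := by
  have e : (∫ z in (0 : ℝ)..x,
      (1 + (-5 / 2) * z ^ 2 + 15 / 8 * z ^ 4 + (-5 / 16) * z ^ 6 + (-5 / 128) * z ^ 8))
      = x * serU (x ^ 2) := by
    rw [Five.Cert.poly8, serU]; ring
  rw [← e]
  refine integral_mono_on h0 (cont_circle.intervalIntegrable _ _)
    ((by fun_prop : Continuous _).intervalIntegrable _ _) fun z hz => ?_
  refine (quint_le (sq_nonneg z) (pow_le_one₀ hz.1 (hz.2.trans h1))).trans_eq ?_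
  ring

lemma circU_ge {x : ℝ} (h0 : 0 ≤ x) (h1 : x ≤ 1) : x * serL (x ^ 2) ≤ circU x := by
  have e : (∫ z in (0 : ℝ)..x,
      (1 + (-5 / 2) * z ^ 2 + 15 / 8 * z ^ 4 + (-5 / 16) * z ^ 6 + (-1 / 16) * z ^ 8))
      = x * serL (x ^ 2) := by
    rw [Five.Cert.poly8, serL]; ring
  rw [← e]
  refine integral_mono_on h0 ((by fun_prop : Continuous _).intervalIntegrable _ _)
    (cont_circle.intervalIntegrable _ _) fun z hz => ?_
  refine le_of_eq_of_le ?_ (quint_ge (sq_nonneg z) (pow_le_one₀ hz.1 (hz.2.trans h1)))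
  ring

lemma circU_one : circU 1 = 5 * π / 32 := by
  obtain ⟨h1, h2⟩ := Four.Prof4.cube_circle
  have e : EqOn (fun z : ℝ => √(1 - z ^ 2) ^ 5)
      (fun z => √(1 - z ^ 2) ^ 3 - z ^ 2 * √(1 - z ^ 2) ^ 3) (uIcc 0 1) := by
    intro z hz
    rw [uIcc_of_le zero_le_one] at hz
    have hq := sq_sqrt (show 0 ≤ 1 - z ^ 2 by nlinarith [hz.1, hz.2])
    show √(1 - z ^ 2) ^ 5 = √(1 - z ^ 2) ^ 3 - z ^ 2 * √(1 - z ^ 2) ^ 3
    rw [show √(1 - z ^ 2) ^ 5 = √(1 - z ^ 2) ^ 2 * √(1 - z ^ 2) ^ 3 by ring, hq]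
    ring
  rw [circU, intervalIntegral.integral_congr e, intervalIntegral.integral_sub
    (Continuous.intervalIntegrable (by fun_prop) _ _)
    (Continuous.intervalIntegrable (by fun_prop) _ _), h1, h2]
  ring

/-- `∫_b^1 (1 - x²)^(5/2)`. -/
noncomputable def capB (b : ℝ) : ℝ := 5 * π / 32 - circU b

lemma capV_eq (s : ℝ) : capV s = capB (√(1 - s ^ 2)) := by
  rw [capB, ← circU_one, capV, circU, circU,
    ← integral_add_adjacent_intervals (a := (0 : ℝ)) (b := √(1 - s ^ 2))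
      (cont_circle.intervalIntegrable _ _) (cont_circle.intervalIntegrable _ _)]
  ring

/-- A truncated series as a function of `b`. -/
noncomputable def serB (k : ℝ) (b : ℝ) : ℝ :=
  serC (√(1 - b ^ 2)) + k * √(1 - b ^ 2) ^ 15

lemma hasDeriv_capB (k : ℝ) {b : ℝ} (h0 : 0 ≤ b) (h1 : b < 1) :
    HasDerivAt (fun x => capB x - serB k x)
      (-√(1 - b ^ 2) ^ 5 + b * √(1 - b ^ 2) ^ 5 *
        (1 + √(1 - b ^ 2) ^ 2 / 2 + 3 / 8 * √(1 - b ^ 2) ^ 4 + 5 / 16 * √(1 - b ^ 2) ^ 6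
          + 15 * k * √(1 - b ^ 2) ^ 8)) b := by
  have hpos : 0 < 1 - b ^ 2 := by nlinarith
  have hs : HasDerivAt (fun x => √(1 - x ^ 2)) (-b / √(1 - b ^ 2)) b := by
    have := ((hasDerivAt_pow 2 b).const_sub 1).sqrt hpos.ne'
    convert this using 1
    field_simp
    ring
  have hU : HasDerivAt circU (√(1 - b ^ 2) ^ 5) b :=
    intervalIntegral.integral_hasDerivAt_right (cont_circle.intervalIntegrable _ _)
      (cont_circle.stronglyMeasurableAtFilter _ _) cont_circle.continuousAt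
  unfold capB serB serC
  have hd := ((hU.const_sub (5 * π / 32))).sub
    (((((hs.pow 7).div_const 7).add ((hs.pow 9).div_const 18)).add
      ((hs.pow 11).const_mul (3 / 88))).add
      ((hs.pow 13).const_mul (5 / 208)) |>.add ((hs.pow 15).const_mul k))
  refine hd.congr_deriv ?_
  have := (sqrt_pos.2 hpos).ne'
  field_simp
  ring

lemma capB_mono (k : ℝ) {b : ℝ} (h0 : 0 ≤ b) (h1 : b ≤ 1)
    (h : ∀ x ∈ Ioo b 1, x * (1 + √(1 - x ^ 2) ^ 2 / 2 + 3 / 8 * √(1 - x ^ 2) ^ 4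
      + 5 / 16 * √(1 - x ^ 2) ^ 6 + 15 * k * √(1 - x ^ 2) ^ 8) ≤ 1) :
    serB k b ≤ capB b := by
  have hc : Continuous fun x => capB x - serB k x := by
    unfold capB serB serC
    have : Continuous circU :=
      intervalIntegral.continuous_primitive (fun a b => cont_circle.intervalIntegrable a b) 0
    fun_prop
  have hm : AntitoneOn (fun x => capB x - serB k x) (Icc b 1) :=
    antitoneOn_of_hasDerivWithinAt_nonpos (convex_Icc b 1) hc.continuousOn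
      (fun x hx => (hasDeriv_capB k (h0.trans (interior_subset hx).1)
        (by rw [interior_Icc] at hx; exact hx.2)).hasDerivWithinAt) fun x hx => by
        rw [interior_Icc] at hx
        have := mul_le_mul_of_nonneg_left (h x hx) (pow_nonneg (sqrt_nonneg (1 - x ^ 2)) 5)
        linarith
  have := hm (left_mem_Icc.2 h1) (right_mem_Icc.2 h1) h1
  simp only [capB, serB, circU_one, serC] at this ⊢
  norm_num at this
  linarith

lemma capB_anti (k : ℝ) {b : ℝ} (h0 : 0 ≤ b) (h1 : b ≤ 1)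
    (h : ∀ x ∈ Ioo b 1, 1 ≤ x * (1 + √(1 - x ^ 2) ^ 2 / 2 + 3 / 8 * √(1 - x ^ 2) ^ 4
      + 5 / 16 * √(1 - x ^ 2) ^ 6 + 15 * k * √(1 - x ^ 2) ^ 8)) :
    capB b ≤ serB k b := by
  have hc : Continuous fun x => capB x - serB k x := by
    unfold capB serB serC
    have : Continuous circU :=
      intervalIntegral.continuous_primitive (fun a b => cont_circle.intervalIntegrable a b) 0
    fun_prop
  have hm : MonotoneOn (fun x => capB x - serB k x) (Icc b 1) :=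
    monotoneOn_of_hasDerivWithinAt_nonneg (convex_Icc b 1) hc.continuousOn
      (fun x hx => (hasDeriv_capB k (h0.trans (interior_subset hx).1)
        (by rw [interior_Icc] at hx; exact hx.2)).hasDerivWithinAt) fun x hx => by
        rw [interior_Icc] at hx
        have := mul_le_mul_of_nonneg_left (h x hx) (pow_nonneg (sqrt_nonneg (1 - x ^ 2)) 5)
        linarith
  have := hm (left_mem_Icc.2 h1) (right_mem_Icc.2 h1) h1
  simp only [capB, serB, circU_one, serC] at this ⊢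
  norm_num at this
  linarith

lemma capV_ge {s : ℝ} (h0 : 0 ≤ s) (h1 : s ≤ 1) : serC s ≤ capV s := by
  have hq : 0 ≤ 1 - s ^ 2 := by nlinarith
  have hb : √(1 - √(1 - s ^ 2) ^ 2) = s := by rw [sq_sqrt hq]; simp [sqrt_sq h0]
  have hb1 : √(1 - s ^ 2) ≤ 1 := sqrt_le_one.2 (by nlinarith)
  have := capB_mono 0 (sqrt_nonneg (1 - s ^ 2)) hb1 fun x hx => by
    have hx0 : 0 ≤ x := (sqrt_nonneg _).trans hx.1.le
    have hu : 0 ≤ 1 - x ^ 2 := by nlinarith [hx.2]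
    have e2 := sq_sqrt hu
    rw [show √(1 - x ^ 2) ^ 4 = (√(1 - x ^ 2) ^ 2) ^ 2 by ring,
      show √(1 - x ^ 2) ^ 6 = (√(1 - x ^ 2) ^ 2) ^ 3 by ring, e2, mul_zero, zero_mul, add_zero]
    exact series_low hx0 hu (by nlinarith) (by ring)
  rw [serB, hb] at this
  rw [capV_eq]
  simpa using this

lemma capV_le {s T : ℝ} (h0 : 0 ≤ s) (h1 : s ≤ 1) (hT : 1 ≤ T * (1 - s ^ 2)) :
    capV s ≤ serC s + T * (7 / 384) * s ^ 15 := by
  have hq : 0 ≤ 1 - s ^ 2 := by nlinarith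
  have hb : √(1 - √(1 - s ^ 2) ^ 2) = s := by rw [sq_sqrt hq]; simp [sqrt_sq h0]
  have hb1 : √(1 - s ^ 2) ≤ 1 := sqrt_le_one.2 (by nlinarith)
  have hT0 : 0 ≤ T := by nlinarith
  have := capB_anti (T * (7 / 384)) (sqrt_nonneg (1 - s ^ 2)) hb1 fun x hx => by
    have hx0 : 0 < x := lt_of_le_of_lt (sqrt_nonneg _) hx.1
    have hu : 0 ≤ 1 - x ^ 2 := by nlinarith [hx.2]
    have hxs : 1 - s ^ 2 ≤ x ^ 2 := by
      nlinarith [sq_sqrt hq, hx.1, sqrt_nonneg (1 - s ^ 2)]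
    have e2 := sq_sqrt hu
    rw [show √(1 - x ^ 2) ^ 4 = (√(1 - x ^ 2) ^ 2) ^ 2 by ring,
      show √(1 - x ^ 2) ^ 6 = (√(1 - x ^ 2) ^ 2) ^ 3 by ring,
      show √(1 - x ^ 2) ^ 8 = (√(1 - x ^ 2) ^ 2) ^ 4 by ring, e2,
      show 15 * (T * (7 / 384)) = 35 / 128 * T by ring]
    exact series_high hx0 hu (by ring) (by rw [sub_sub_cancel]; nlinarith)
  rw [serB, hb] at this
  rw [capV_eq]
  exact this

end Vale.Agent.P237.Six.Cert
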