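import Vale.Agent.P237.Six.CertExpr

/-!
# P237, `n = 6`: leaves of the certificate for the second derivative, part 1
-/

namespace Vale.Agent.P237.Six.Cert

open Five.Cert (Box Md Mul1)

set_option maxRecDepth 100000

lemma okB0 : Tree.check LeafB.ok
    (.sS
  (.sR
    (.leaf (.start 1000000 none))
    (.sS
      (.sR
        (.leaf (.start 1000000 none))
        (.leaf (.start 1010000 (some ⟨.node 370990 928636, 999998, (-500490), 999512, (some 1003923), ⟨false, 18888⟩, ⟨true, 0⟩, ⟨true, 0⟩, 562499, 1000000⟩))))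
      (.sR
        (.leaf (.start 1000000 none))
        (.leaf (.weight ⟨.node 314697 949192, 1000005, (-502462), 995596, (some 1015875), ⟨false, 88620⟩, ⟨true, 0⟩, ⟨true, 0⟩, 622801, 1000000⟩ 1014000 1030000 1022000 1258390)))))
  (.sR
    (.leaf (.start 1000000 none))
    (.sS
      (.sR
        (.leaf (.start 1000000 none))
        (.leaf (.weight ⟨.node 261679 965154, 1000068, (-506478), 987718, (some 1036439), ⟨true, 83740⟩, ⟨true, 0⟩, ⟨true, 0⟩, 678709, 1000000⟩ 1018000 1051000 1034000 94997)))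
      (.sR
        (.leaf (.start 1000000 none))
        (.leaf (.weight ⟨.node 208473 978028, 1000286, (-512687), 975781, (some 1066668), ⟨true, 38733⟩, ⟨true, 0⟩, ⟨true, 0⟩, 730223, 1000000⟩ 1022000 1066000 1066000 34353))))))
    ⟨0, 4096, 0, 12288⟩ = true := by
  decide +kernel

lemma okB1 : Tree.check LeafB.ok
    (.leaf (.weight ⟨.node 136235 990676, 999998, (-500490), 999512, (some 1003923), ⟨true, 0⟩, ⟨true, 0⟩, ⟨true, 0⟩, 749999, 1000000⟩ 1050000 1145000 1145000 1959))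
    ⟨0, 1024, 12288, 15360⟩ = true := by
  decide +kernel

lemma okB2 : Tree.check LeafB.ok
    (.sS
  (.sR
    (.leaf (.weight ⟨.node 34456 999406, 999998, (-500031), 999969, (some 1000246), ⟨true, 0⟩, ⟨true, 0⟩, ⟨true, 0⟩, 937499, 1000000⟩ 1135000 1163000 1163000 2113))
    (.sS
      (.sR
        (.sS
          (.sR
            (.leaf (.weight ⟨.node 9959 999950, 999998, (-500002), 999998, (some 1000017), ⟨true, 0⟩, ⟨true, 0⟩, ⟨true, 0⟩, 984374, 1000000⟩ 1161000 1168000 1164000 16608))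
            (.leaf (.weight ⟨.flat, 999998, (-500002), 999998, (some 1000017), ⟨true, 0⟩, ⟨true, 0⟩, ⟨true, 0⟩, 996092, 1011705⟩ 1165000 1177000 1171000 2959)))
          (.sR
            (.leaf (.weight ⟨.node 4959 999987, 999998, (-500010), 999983, (some 1000063), ⟨true, 0⟩, ⟨true, 0⟩, ⟨true, 0⟩, 988265, 1003847⟩ 1162000 1169000 1165000 3577))
            (.leaf (.weight ⟨.flat, 999998, (-500010), 999983, (some 1000063), ⟨true, 0⟩, ⟨true, 0⟩, ⟨true, 0⟩, 999983, 1015565⟩ 1169000 1179000 1174000 18463))))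
        (.leaf (.weight ⟨.flat, 999998, (-500008), 999992, (some 1000063), ⟨true, 0⟩, ⟨true, 0⟩, ⟨true, 0⟩, 1007811, 1039001⟩ 1179000 1197000 1188000 8385)))
      (.sR
        (.sS
          (.sR
            (.leaf (.weight ⟨.chord, 999998, (-500025), 999952, (some 1000139), ⟨true, 0⟩, ⟨true, 0⟩, ⟨true, 0⟩, 992126, 1007677⟩ 1163000 1171000 1167000 10382))
            (.leaf (.weight ⟨.flat, 999998, (-500025), 999952, (some 1000139), ⟨true, 0⟩, ⟨true, 0⟩, ⟨true, 0⟩, 1003844, 1019394⟩ 1172000 1180000 1176000 6597)))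
          (.leaf (.weight ⟨.flat, 999998, (-500048), 999907, (some 1000246), ⟨true, 0⟩, ⟨true, 0⟩, ⟨true, 0⟩, 995957, 1023193⟩ 1162000 1182000 1172000 11873)))
        (.leaf (.weight ⟨.flat, 999998, (-500039), 999931, (some 1000246), ⟨true, 0⟩, ⟨true, 0⟩, ⟨true, 0⟩, 1015562, 1046625⟩ 1186000 1200000 1193000 7173)))))
  (.sR
    (.leaf (.weight ⟨.node 14530 999894, 999998, (-500153), 999725, (some 1000979), ⟨true, 0⟩, ⟨true, 0⟩, ⟨true, 0⟩, 952895, 1014665⟩ 1139000 1170000 1154000 7288))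
    (.leaf (.weight ⟨.flat, 999998, (-500153), 999725, (some 1000979), ⟨true, 0⟩, ⟨true, 0⟩, ⟨true, 0⟩, 999758, 1061494⟩ 1166000 1206000 1206000 12965))))
    ⟨0, 512, 15360, 16896⟩ = true := by
  decide +kernel

lemma okB3 : Tree.check LeafB.ok
    (.leaf (.weight ⟨.flat, 999998, (-500123), 999878, (some 1000979), ⟨true, 0⟩, ⟨true, 0⟩, ⟨true, 0⟩, 1031249, 1155153⟩ 1206000 1278000 1278000 9539))
    ⟨0, 512, 16896, 18432⟩ = true := by
  decide +kernel

lemma okB4 : Tree.check LeafB.ok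
    (.sR
  (.sS
    (.sR
      (.leaf (.weight ⟨.chord, 999998, (-500398), 999237, (some 1002204), ⟨true, 0⟩, ⟨true, 0⟩, ⟨true, 0⟩, 967833, 1029089⟩ 1144000 1176000 1160000 11820))
      (.leaf (.weight ⟨.flat, 999998, (-500398), 999237, (some 1002204), ⟨true, 0⟩, ⟨true, 0⟩, ⟨true, 0⟩, 1014662, 1075861⟩ 1179000 1211000 1211000 4506)))
    (.sR
      (.leaf (.weight ⟨.chord, 999999, (-500765), 998504, (some 1003923), ⟨true, 0⟩, ⟨true, 0⟩, ⟨true, 0⟩, 982314, 1043031⟩ 1149000 1181000 1181000 6277))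
      (.leaf (.weight ⟨.flat, 999999, (-500765), 998504, (some 1003923), ⟨true, 0⟩, ⟨true, 0⟩, ⟨true, 0⟩, 1029086, 1089723⟩ 1192000 1216000 1204000 845))))
  (.leaf (.weight ⟨.flat, 999998, (-500612), 998901, (some 1003923), ⟨true, 0⟩, ⟨true, 0⟩, ⟨true, 0⟩, 1061491, 1183107⟩ 1233000 1287000 1287000 35510)))
    ⟨512, 1024, 15360, 18432⟩ = true := by
  decide +kernel

lemma okB5 : Tree.check LeafB.ok
    (.sR
  (.leaf (.weight ⟨.node 78828 996888, 1000005, (-502462), 995596, (some 1015875), ⟨true, 0⟩, ⟨true, 0⟩, ⟨true, 0⟩, 809569, 1047853⟩ 1061000 1164000 1164000 8249))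
  (.sS
    (.sR
      (.sS
        (.sR
          (.leaf (.weight ⟨.flat, 1000000, (-501257), 997525, (some 1006142), ⟨true, 0⟩, ⟨true, 0⟩, ⟨true, 0⟩, 996336, 1056493⟩ 1151000 1186000 1168000 4486))
          (.leaf (.weight ⟨.flat, 1000000, (-501257), 997525, (some 1006142), ⟨true, 0⟩, ⟨true, 0⟩, ⟨true, 0⟩, 1043028, 1103082⟩ 1204000 1221000 1212000 21722)))
        (.leaf (.weight ⟨.flat, 1000004, (-501873), 996301, (some 1008868), ⟨true, 0⟩, ⟨true, 0⟩, ⟨true, 0⟩, 1009901, 1115938⟩ 1163000 1225000 1225000 37333)))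
      (.leaf (.weight ⟨.flat, 1000002, (-501595), 996944, (some 1008868), ⟨true, 0⟩, ⟨true, 0⟩, ⟨true, 0⟩, 1089720, 1208864⟩ 1258000 1293000 1293000 23121)))
    (.sR
      (.leaf (.weight ⟨.flat, 1000015, (-503081), 994001, (some 1015875), ⟨true, 0⟩, ⟨true, 0⟩, ⟨true, 0⟩, 1023009, 1140138⟩ 1174000 1231000 1231000 22435))
      (.leaf (.weight ⟨.flat, 1000015, (-503081), 994001, (some 1015875), ⟨true, 0⟩, ⟨true, 0⟩, ⟨true, 0⟩, 1115935, 1232423⟩ 1279000 1298000 1288000 53168)))))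
    ⟨1024, 2048, 12288, 18432⟩ = true := by
  decide +kernel

lemma okB6 : Tree.check LeafB.ok
    (.leaf (.weight ⟨.flat, 999998, (-501969), 998045, (some 1015875), ⟨true, 0⟩, ⟨true, 0⟩, ⟨true, 0⟩, 1124999, 1601564⟩ 1316000 1564000 1440000 807984))
    ⟨0, 2048, 18432, 24576⟩ = true := by
  decide +kernel

lemma okB7 : Tree.check LeafB.ok
    (.sR
  (.sS
    (.sR
      (.leaf (.weight ⟨.chord, 1000068, (-506478), 987718, (some 1036439), ⟨true, 0⟩, ⟨true, 0⟩, ⟨true, 0⟩, 863280, 1092043⟩ 1069000 1177000 1177000 43933))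
      (.leaf (.weight ⟨.flat, 1000068, (-506478), 987718, (some 1036439), ⟨true, 0⟩, ⟨true, 0⟩, ⟨true, 0⟩, 1047850, 1272951⟩ 1195000 1301000 1301000 386662)))
    (.sR
      (.leaf (.weight ⟨.chord, 1000286, (-512687), 975781, (some 1066668), ⟨true, 0⟩, ⟨true, 0⟩, ⟨true, 0⟩, 911131, 1128908⟩ 1081000 1183000 1183000 42436))
      (.leaf (.weight ⟨.flat, 1000286, (-512687), 975781, (some 1066668), ⟨true, 0⟩, ⟨true, 0⟩, ⟨true, 0⟩, 1092040, 1304689⟩ 1227000 1301000 1264000 2072493))))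
  (.leaf (.weight ⟨.flat, 1000125, (-510100), 982265, (some 1066668), ⟨true, 0⟩, ⟨true, 0⟩, ⟨true, 0⟩, 1232420, 1656252⟩ 1398000 1558000 1478000 2437053)))
    ⟨2048, 4096, 12288, 24576⟩ = true := by
  decide +kernel

lemma okB8 : Tree.check LeafB.ok
    (.sS
  (.sR
    (.leaf (.start 1000000 none))
    (.sS
      (.sR
        (.leaf (.start 1000000 none))
        (.leaf (.weight ⟨.node 160000 987117, 1000827, (-521332), 959635, (some 1108227), ⟨true, 351⟩, ⟨true, 0⟩, ⟨true, 0⟩, 777342, 1000000⟩ 1025000 1077000 1077000 39734)))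
      (.sR
        (.leaf (.start 1000000 none))
        (.leaf (.weight ⟨.node 116601 993178, 1001945, (-532782), 939061, (some 1163638), ⟨true, 0⟩, ⟨true, 0⟩, ⟨true, 0⟩, 820067, 1019533⟩ 1029000 1084000 1084000 121316)))))
  (.sR
    (.leaf (.start 1000000 none))
    (.sS
      (.sR
        (.leaf (.start 1003000 (some ⟨.node 335571 942014, 1004025, (-547573), 913762, (some 1236716), ⟨false, 2058⟩, ⟨true, 0⟩, ⟨true, 0⟩, 697264, 1000000⟩)))
        (.leaf (.weight ⟨.node 72498 997368, 1004025, (-547573), 913762, (some 1236716), ⟨true, 0⟩, ⟨true, 0⟩, ⟨true, 0⟩, 858397, 1043947⟩ 1031000 1086000 1086000 381)))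
      (.sR
        (.leaf (.weight ⟨.node 292552 956249, 1007646, (-566494), 883331, (some 1333335), ⟨false, 31413⟩, ⟨true, 0⟩, ⟨true, 0⟩, 740721, 1000000⟩ 1004000 1012000 1008000 4542610))
        (.leaf (.weight ⟨.node 32474 999472, 1007646, (-566494), 883331, (some 1333335), ⟨true, 0⟩, ⟨true, 0⟩, ⟨true, 0⟩, 892332, 1062502⟩ 1032000 1087000 1087000 314093))))))
    ⟨4096, 8192, 0, 12288⟩ = true := by
  decide +kernel

end Vale.Agent.P237.Six.Cert
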