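import Vale.Agent.P237.Six.CertExpr

/-!
# P237, `n = 6`: leaves of the certificate for the second derivative, part 2
-/

namespace Vale.Agent.P237.Six.Cert

open Five.Cert (Box Md Mul1)

set_option maxRecDepth 100000

lemma okB9 : Tree.check LeafB.ok
    (.sS
  (.sR
    (.sS
      (.sR
        (.leaf (.weight ⟨.chord, 1000827, (-521332), 959635, (some 1108227), ⟨true, 0⟩, ⟨true, 0⟩, ⟨true, 0⟩, 953124, 1158449⟩ 1091000 1184000 1184000 33794))
        (.leaf (.weight ⟨.flat, 1000827, (-521332), 959635, (some 1108227), ⟨true, 0⟩, ⟨true, 0⟩, ⟨true, 0⟩, 1128905, 1327638⟩ 1249000 1298000 1273000 3558011)))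
      (.sR
        (.leaf (.weight ⟨.flat, 1001945, (-532782), 939061, (some 1163638), ⟨true, 0⟩, ⟨true, 0⟩, ⟨true, 0⟩, 989256, 1180666⟩ 1092000 1184000 1138000 1196776))
        (.leaf (.weight ⟨.flat, 1001945, (-532782), 939061, (some 1163638), ⟨true, 0⟩, ⟨true, 0⟩, ⟨true, 0⟩, 1158446, 1341798⟩ 1260000 1290000 1275000 6935786))))
    (.leaf (.weight ⟨.flat, 1001220, (-527630), 949918, (some 1163638), ⟨true, 0⟩, ⟨true, 0⟩, ⟨true, 0⟩, 1304686, 1671877⟩ 1406000 1524000 1465000 7303225)))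
  (.sR
    (.leaf (.weight ⟨.flat, 1005450, (-557709), 899218, (some 1333335), ⟨true, 0⟩, ⟨true, 0⟩, ⟨true, 0⟩, 1019530, 1351564⟩ 1109000 1276000 1192000 1526619))
    (.leaf (.weight ⟨.flat, 1005450, (-557709), 899218, (some 1333335), ⟨true, 0⟩, ⟨true, 0⟩, ⟨true, 0⟩, 1341795, 1664064⟩ 1344000 1467000 1405000 283760))))
    ⟨4096, 8192, 12288, 24576⟩ = true := by
  decide +kernel

lemma okB10 : Tree.check LeafB.ok
    (.sS
  (.leaf (.weight ⟨.flat, 999998, (-508067), 992157, (some 1066668), ⟨true, 0⟩, ⟨true, 0⟩, ⟨true, 0⟩, 1499999, 3125002⟩ 1755000 2609000 2182000 583875))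
  (.sR
    (.sS
      (.leaf (.weight ⟨.flat, 1001220, (-527630), 949918, (some 1163638), ⟨true, 0⟩, ⟨true, 0⟩, ⟨true, 0⟩, 1656249, 2359377⟩ 1669000 1945000 1807000 15167197))
      (.leaf (.weight ⟨.flat, 1005450, (-557709), 899218, (some 1333335), ⟨true, 0⟩, ⟨true, 0⟩, ⟨true, 0⟩, 1624999, 2308595⟩ 1516000 1841000 1678000 29616414)))
    (.sS
      (.leaf (.weight ⟨.flat, 1001220, (-527630), 949918, (some 1163638), ⟨true, 0⟩, ⟨true, 0⟩, ⟨true, 0⟩, 2308592, 3062502⟩ 2046000 2312000 2179000 16256180))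
      (.sR
        (.leaf (.weight ⟨.chord, 1005450, (-557709), 899218, (some 1333335), ⟨true, 0⟩, ⟨true, 0⟩, ⟨true, 0⟩, 1000000, 2630861⟩ 1739000 2023000 1881000 2905957))
        (.outY)))))
    ⟨0, 8192, 24576, 49152⟩ = true := by
  decide +kernel

lemma okB11 : Tree.check LeafB.ok
    (.sS
  (.sR
    (.leaf (.start 1000000 none))
    (.sS
      (.sR
        (.leaf (.weight ⟨.node 251509 967854, 1013705, (-590730), 847215, (some 1462859), ⟨false, 52932⟩, ⟨true, 0⟩, ⟨true, 0⟩, 781249, 1000000⟩ 1005000 1019000 1012000 4765193))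
        (.leaf (.weight ⟨.node 2388 999997, 1013705, (-590730), 847215, (some 1462859), ⟨true, 0⟩, ⟨true, 0⟩, ⟨true, 0⟩, 921874, 1075197⟩ 1033000 1086000 1086000 1140772)))
      (.sR
        (.leaf (.weight ⟨.node 212596 977140, 1023636, (-622115), 804650, (some 1641027), ⟨true, 65333⟩, ⟨true, 0⟩, ⟨true, 0⟩, 818846, 1000000⟩ 1005000 1023000 1014000 5684219))
        (.leaf (.weight ⟨.chord, 1023636, (-622115), 804650, (some 1641027), ⟨true, 0⟩, ⟨true, 0⟩, ⟨true, 0⟩, 947020, 1082033⟩ 1032000 1082000 1057000 4694359)))))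
  (.sR
    (.leaf (.start 1000000 none))
    (.sS
      (.sR
        (.leaf (.weight ⟨.node 173686 984801, 1039862, (-663655), 754544, (some 1896298), ⟨true, 42606⟩, ⟨true, 0⟩, ⟨true, 0⟩, 853514, 1000000⟩ 1005000 1025000 1015000 3723792))
        (.leaf (.weight ⟨.chord, 1039862, (-663655), 754544, (some 1896298), ⟨true, 0⟩, ⟨true, 0⟩, ⟨true, 0⟩, 967772, 1083986⟩ 1029000 1075000 1052000 6142807)))
      (.sR
        (.leaf (.weight ⟨.node 137660 990479, 1066805, (-720658), 695269, none, ⟨true, 24512⟩, ⟨true, 32122⟩, ⟨true, 31920⟩, 885252, 1000000⟩ 1005000 1025000 1015000 12996394))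
        (.leaf (.weight ⟨.chord, 1066805, (-720658), 695269, none, ⟨true, 0⟩, ⟨true, 0⟩, ⟨true, 0⟩, 984129, 1083009⟩ 1024000 1066000 1045000 20648032))))))
    ⟨8192, 12288, 0, 12288⟩ = true := by
  decide +kernel

lemma okB12 : Tree.check LeafB.ok
    (.sS
  (.sR
    (.leaf (.weight ⟨.flat, 1017846, (-607294), 826797, (some 1641027), ⟨true, 0⟩, ⟨true, 0⟩, ⟨true, 0⟩, 1062499, 1343752⟩ 1107000 1238000 1172000 9646023))
    (.leaf (.weight ⟨.flat, 1017846, (-607294), 826797, (some 1641027), ⟨true, 0⟩, ⟨true, 0⟩, ⟨true, 0⟩, 1310545, 1625002⟩ 1249000 1397000 1323000 591888)))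
  (.sR
    (.leaf (.weight ⟨.flat, 1051502, (-693452), 726184, none, ⟨true, 0⟩, ⟨true, 0⟩, ⟨true, 0⟩, 1078124, 1310548⟩ 1073000 1187000 1130000 834912))
    (.leaf (.weight ⟨.flat, 1051502, (-693452), 726184, none, ⟨true, 0⟩, ⟨true, 0⟩, ⟨true, 0⟩, 1242186, 1539064⟩ 1140000 1316000 1228000 20670101))))
    ⟨8192, 12288, 12288, 24576⟩ = true := by
  decide +kernel

lemma okB13 : Tree.check LeafB.ok
    (.sR
  (.leaf (.weight ⟨.circ, 1152461, (-872935), 582961, none, ⟨true, 0⟩, ⟨true, 97⟩, ⟨true, 0⟩, 750000, 1000000⟩ 1000000 1002000 1001000 6678521))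
  (.sS
    (.sR
      (.leaf (.weight ⟨.node 104453 994529, 1113461, (-803601), 624218, none, ⟨true, 10999⟩, ⟨true, 15290⟩, ⟨true, 15195⟩, 914061, 1003664⟩ 1004000 1023000 1013000 20706341))
      (.leaf (.weight ⟨.flat, 1113461, (-803601), 624218, none, ⟨true, 0⟩, ⟨true, 0⟩, ⟨true, 0⟩, 996092, 1078127⟩ 1019000 1054000 1036000 1963107)))
    (.sR
      (.leaf (.weight ⟨.node 73751 997276, 1201614, (-937134), 536736, none, ⟨true, 1933⟩, ⟨true, 3600⟩, ⟨true, 3565⟩, 939940, 1006837⟩ 1002000 1019000 1010000 25336380))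
      (.leaf (.weight ⟨.flat, 1201614, (-937134), 536736, none, ⟨true, 0⟩, ⟨true, 0⟩, ⟨true, 0⟩, 1003661, 1067384⟩ 1012000 1041000 1026000 269485)))))
    ⟨12288, 14336, 0, 12288⟩ = true := by
  decide +kernel

lemma okB14 : Tree.check LeafB.ok
    (.sR
  (.sS
    (.leaf (.weight ⟨.circ, 1404223, (-1201767), 422742, none, ⟨true, 0⟩, ⟨true, 9⟩, ⟨true, 0⟩, 875000, 1000000⟩ 1000000 1001000 1000000 83911826))
    (.leaf (.start 1000000 none)))
  (.sS
    (.sR
      (.leaf (.weight ⟨.node 45229 998976, 1404223, (-1201767), 422742, none, ⟨true, 0⟩, ⟨true, 0⟩, ⟨true, 0⟩, 962889, 1007326⟩ 1001000 1012000 1006000 2726511))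
      (.leaf (.weight ⟨.flat, 1404223, (-1201767), 422742, none, ⟨true, 0⟩, ⟨true, 0⟩, ⟨true, 0⟩, 1005614, 1050783⟩ 1005000 1026000 1015000 1)))
    (.sR
      (.sS
        (.leaf (.weight ⟨.chord, 1822598, (-1677784), 302577, none, ⟨true, 0⟩, ⟨true, 0⟩, ⟨true, 0⟩, 982909, 1005617⟩ 1000000 1002000 1001000 1))
        (.leaf (.start 1000000 none)))
      (.sS
        (.leaf (.weight ⟨.flat, 1822598, (-1677784), 302577, none, ⟨true, 0⟩, ⟨true, 0⟩, ⟨true, 0⟩, 1003355, 1028322⟩ 1001000 1008000 1004000 1))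
        (.leaf (.start 1000000 none))))))
    ⟨14336, 16384, 0, 12288⟩ = true := by
  decide +kernel

lemma okB15 : Tree.check LeafB.ok
    (.sR
  (.leaf (.weight ⟨.flat, 1152461, (-872935), 582961, none, ⟨true, 0⟩, ⟨true, 0⟩, ⟨true, 0⟩, 1050780, 1242189⟩ 1029000 1129000 1079000 13884854))
  (.leaf (.weight ⟨.chord, 1152461, (-872935), 582961, none, ⟨true, 0⟩, ⟨true, 0⟩, ⟨true, 0⟩, 1000000, 1406252⟩ 1045000 1225000 1135000 29295446)))
    ⟨12288, 14336, 12288, 24576⟩ = true := by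
  decide +kernel

lemma okB16 : Tree.check LeafB.ok
    (.sS
  (.leaf (.weight ⟨.flat, 1404223, (-1201767), 422742, none, ⟨true, 0⟩, ⟨true, 0⟩, ⟨true, 0⟩, 1028319, 1138673⟩ 1011000 1063000 1037000 21370799))
  (.sR
    (.sS
      (.leaf (.weight ⟨.flat, 1822598, (-1677784), 302577, none, ⟨true, 0⟩, ⟨true, 0⟩, ⟨true, 0⟩, 1014891, 1051027⟩ 1003000 1016000 1009000 2040124))
      (.sR
        (.sS
          (.leaf (.start 1001000 (some ⟨.flat, 2460779, (-2357802), 215234, none, ⟨true, 0⟩, ⟨true, 0⟩, ⟨true, 0⟩, 1007628, 1020662⟩)))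
          (.leaf (.start 1000000 none)))
        (.sS
          (.leaf (.weight ⟨.flat, 2460779, (-2357802), 215234, none, ⟨true, 0⟩, ⟨true, 0⟩, ⟨true, 0⟩, 1010535, 1026430⟩ 1001000 1003000 1002000 1))
          (.leaf (.start 1000000 none)))))
    (.sS
      (.leaf (.weight ⟨.circ, 1822598, (-1677784), 302577, none, ⟨true, 0⟩, ⟨true, 0⟩, ⟨true, 0⟩, 937500, 1000000⟩ 1003000 1027000 1015000 12367502))
      (.sR
        (.sS
          (.leaf (.weight ⟨.flat, 2460779, (-2357802), 215234, none, ⟨true, 0⟩, ⟨true, 0⟩, ⟨true, 0⟩, 1013441, 1032198⟩ 1001000 1005000 1003000 1))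
          (.leaf (.start 1000000 none)))
        (.sS
          (.leaf (.weight ⟨.circ, 2460779, (-2357802), 215234, none, ⟨true, 0⟩, ⟨true, 0⟩, ⟨true, 0⟩, 968750, 1000000⟩ 1001000 1008000 1004000 2542223))
          (.outT))))))
    ⟨14336, 16384, 12288, 18432⟩ = true := by
  decide +kernel

lemma okB17 : Tree.check LeafB.ok
    (.sS
  (.leaf (.weight ⟨.chord, 1404223, (-1201767), 422742, none, ⟨true, 0⟩, ⟨true, 0⟩, ⟨true, 0⟩, 1000000, 1226564⟩ 1016000 1117000 1066000 36155010))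
  (.outT))
    ⟨14336, 16384, 18432, 24576⟩ = true := by
  decide +kernel

lemma okB18 : Tree.check LeafB.ok
    (.sS
  (.sR
    (.sS
      (.sR
        (.leaf (.weight ⟨.flat, 1017846, (-607294), 826797, (some 1641027), ⟨true, 0⟩, ⟨true, 0⟩, ⟨true, 0⟩, 1539061, 1906252⟩ 1284000 1564000 1424000 91725134))
        (.sS
          (.leaf (.weight ⟨.chord, 1013705, (-590730), 847215, (some 1462859), ⟨true, 0⟩, ⟨true, 0⟩, ⟨true, 0⟩, 1000000, 2187502⟩ 1497000 1741000 1619000 4004611))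
          (.outT)))
      (.sR
        (.sS
          (.leaf (.weight ⟨.chord, 1039862, (-663655), 754544, (some 1896298), ⟨true, 0⟩, ⟨true, 0⟩, ⟨true, 0⟩, 1000000, 1767580⟩ 1243000 1465000 1354000 7093537))
          (.outT))
        (.outT)))
    (.outT))
  (.outT))
    ⟨8192, 16384, 24576, 49152⟩ = true := by
  decide +kernel

end Vale.Agent.P237.Six.Cert
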