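import Vale.Agent.P237.Six.CertSpec
import Vale.Agent.P237.Six.CertDataA1
import Vale.Agent.P237.Six.CertDataA2
import Vale.Agent.P237.Six.CertDataA3
import Vale.Agent.P237.Six.CertDataA4
import Vale.Agent.P237.Six.CertDataA5
import Vale.Agent.P237.Six.CertDataB1
import Vale.Agent.P237.Six.CertDataB2

/-!
# P237, `n = 6`: assembly of the certificate
-/

namespace Vale.Agent.P237.Six.Cert

open Five.Cert (Box)

lemma nS {α : Type} {ok : Box → α → Bool} {l g : Tree α} {A B A' B' : ℤ} (m : ℤ)
    (hm : (A + B) / 2 = m) (hl : l.check ok ⟨A, m, A', B'⟩ = true)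
    (hg : g.check ok ⟨m, B, A', B'⟩ = true) :
    (Tree.sS l g).check ok ⟨A, B, A', B'⟩ = true := by simp [Tree.check, hm, hl, hg]

lemma nR {α : Type} {ok : Box → α → Bool} {l g : Tree α} {A B A' B' : ℤ} (m : ℤ)
    (hm : (A' + B') / 2 = m) (hl : l.check ok ⟨A, B, A', m⟩ = true)
    (hg : g.check ok ⟨A, B, m, B'⟩ = true) :
    (Tree.sR l g).check ok ⟨A, B, A', B'⟩ = true := by simp [Tree.check, hm, hl, hg]

/-- The certificate is valid. -/
theorem data_ok : DataOk := ⟨
  ⟨_,
    (nS 8192 (by decide)
    (nR 24576 (by decide)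
    (nS 4096 (by decide)
    (nR 12288 (by decide)
    okA0
    (nS 2048 (by decide)
    (nR 18432 (by decide)
    (nS 1024 (by decide)
    (nR 15360 (by decide)
    okA1
    (nS 512 (by decide)
    okA2
    okA3))
    okA4)
    (nS 1024 (by decide)
    (nR 21504 (by decide)
    (nS 512 (by decide)
    (nR 19968 (by decide)
    okA5
    okA6)
    okA7)
    (nS 512 (by decide)
    (nR 23040 (by decide)
    okA8
    okA9)
    okA10))
    okA11))
    (nR 18432 (by decide)
    (nS 3072 (by decide)
    okA12
    okA13)
    okA14)))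
    (nR 12288 (by decide)
    okA15
    (nS 6144 (by decide)
    okA16
    okA17)))
    (nS 4096 (by decide)
    (nR 36864 (by decide)
    (nS 2048 (by decide)
    (nR 30720 (by decide)
    (nS 1024 (by decide)
    okA18
    okA19)
    okA20)
    okA21)
    okA22)
    okA23))
    (nR 24576 (by decide)
    (nS 12288 (by decide)
    (nR 12288 (by decide)
    (nS 10240 (by decide)
    (nR 6144 (by decide)
    okA24
    okA25)
    (nR 6144 (by decide)
    okA26
    (nS 11264 (by decide)
    (nR 9216 (by decide)
    okA27
    (nS 10752 (by decide)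
    okA28
    okA29))
    okA30)))
    okA31)
    (nR 12288 (by decide)
    (nS 14336 (by decide)
    (nR 6144 (by decide)
    okA32
    okA33)
    okA34)
    (nS 14336 (by decide)
    okA35
    (nR 18432 (by decide)
    (nS 15360 (by decide)
    (nR 15360 (by decide)
    okA36
    (nS 14848 (by decide)
    okA37
    okA38))
    okA39)
    okA40))))
    okA41))⟩,
  ⟨_,
    (nS 8192 (by decide)
    (nR 24576 (by decide)
    (nS 4096 (by decide)
    (nR 12288 (by decide)
    okB0
    (nS 2048 (by decide)
    (nR 18432 (by decide)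
    (nS 1024 (by decide)
    (nR 15360 (by decide)
    okB1
    (nS 512 (by decide)
    (nR 16896 (by decide)
    okB2
    okB3)
    okB4))
    okB5)
    okB6)
    okB7))
    (nR 12288 (by decide)
    okB8
    okB9))
    okB10)
    (nR 24576 (by decide)
    (nS 12288 (by decide)
    (nR 12288 (by decide)
    okB11
    okB12)
    (nR 12288 (by decide)
    (nS 14336 (by decide)
    okB13
    okB14)
    (nS 14336 (by decide)
    okB15
    (nR 18432 (by decide)
    okB16
    okB17))))
    okB18))⟩⟩

end Vale.Agent.P237.Six.Cert
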