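import Vale.Agent.P237.Five.CertEnvelope
import Vale.Agent.P237.Six.Bounds

/-!
# P237, `n = 6`: lower envelopes of the head of the profile

`Low j₄ j₅ J₄ J₅ ym L g0` records what follows from a lower envelope of `g` on `[0, t]` with values
in `[ym, L]`: lower bounds for the two integrals and two relations between the excesses.
-/

namespace Vale.Agent.P237.Six.Cert

open MeasureTheory Set Real intervalIntegral
open Five (footT endY)
open Five.Cert (avg4 circV circ4 line_ints chord_below foot_mem endY_ge pow_integrable)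

/-- `(h + L)(h² + L²) / (h⁴ + h³L + h²L² + hL³ + L⁴)`. -/
noncomputable def sigma (h L : ℝ) : ℝ :=
  (h + L) * (h ^ 2 + L ^ 2) / (h ^ 4 + h ^ 3 * L + h ^ 2 * L ^ 2 + h * L ^ 3 + L ^ 4)

/-- Average of the fifth power on a segment from `a` to `c`. -/
noncomputable def avg5 (a c : ℝ) : ℝ :=
  (a ^ 5 + a ^ 4 * c + a ^ 3 * c ^ 2 + a ^ 2 * c ^ 3 + a * c ^ 4 + c ^ 5) / 6

/-- What a lower envelope gives. -/
structure Low (j4 j5 J4 J5 ym L g0 : ℝ) : Prop where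
  le4 : J4 ≤ j4
  le5 : J5 ≤ j5
  rho : 5 / 4 * ym * (j4 - J4) ≤ j5 - J5
  sig : ∀ h, g0 ≤ h → L ≤ h → 0 < h → sigma h L * (j5 - J5) ≤ j4 - J4

lemma sigma_step {a c b : ℝ} (ha : 0 ≤ a) (hc : 0 ≤ c) (hb : 0 ≤ b) (hac : a ≤ c) :
    (c + b) * (c ^ 2 + b ^ 2) * (a ^ 4 + a ^ 3 * b + a ^ 2 * b ^ 2 + a * b ^ 3 + b ^ 4) ≤
      (a + b) * (a ^ 2 + b ^ 2) * (c ^ 4 + c ^ 3 * b + c ^ 2 * b ^ 2 + c * b ^ 3 + b ^ 4) := by
  have := mul_nonneg (sub_nonneg.2 hac)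
    (show 0 ≤ b ^ 3 * (a ^ 3 + a ^ 2 * c + a * c ^ 2 + c ^ 3)
      + b ^ 2 * (a ^ 3 * c + a ^ 2 * c ^ 2 + a * c ^ 3) + b * (a ^ 3 * c ^ 2 + a ^ 2 * c ^ 3)
      + a ^ 3 * c ^ 3 by positivity)
  linear_combination this

lemma pow_rho {x l ym : ℝ} (hy0 : 0 ≤ ym) (hyl : ym ≤ l) (hlx : l ≤ x) :
    5 / 4 * ym * (x ^ 4 - l ^ 4) ≤ x ^ 5 - l ^ 5 := by
  have hl : 0 ≤ l := hy0.trans hyl
  have hx : 0 ≤ x := hl.trans hlx
  have h4 : 0 ≤ x ^ 4 - l ^ 4 := sub_nonneg.2 (pow_le_pow_left₀ hl hlx 4)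
  have h5 : 5 / 4 * ym * (x ^ 4 - l ^ 4) ≤ 5 / 4 * l * (x ^ 4 - l ^ 4) :=
    mul_le_mul_of_nonneg_right (by linarith) h4
  nlinarith [mul_nonneg (sq_nonneg (x - l))
    (show 0 ≤ 4 * x ^ 3 + 3 * x ^ 2 * l + 2 * x * l ^ 2 + l ^ 3 by positivity)]

lemma pow_sig {x l h L : ℝ} (hl : 0 ≤ l) (hlx : l ≤ x) (hlL : l ≤ L) (hxh : x ≤ h) (hh : 0 < h) :
    sigma h L * (x ^ 5 - l ^ 5) ≤ x ^ 4 - l ^ 4 := by
  have hx : 0 ≤ x := hl.trans hlx
  have hL : 0 ≤ L := hl.trans hlL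
  have hd : 0 < h ^ 4 + h ^ 3 * L + h ^ 2 * L ^ 2 + h * L ^ 3 + L ^ 4 := by positivity
  have h1 := sigma_step hx hh.le hl hxh
  have h2 := sigma_step hl hL hh.le hlL
  have hl' : 0 < h ^ 4 + h ^ 3 * l + h ^ 2 * l ^ 2 + h * l ^ 3 + l ^ 4 := by positivity
  have key : (h + L) * (h ^ 2 + L ^ 2) * (x ^ 4 + x ^ 3 * l + x ^ 2 * l ^ 2 + x * l ^ 3 + l ^ 4) ≤
      (x + l) * (x ^ 2 + l ^ 2) * (h ^ 4 + h ^ 3 * L + h ^ 2 * L ^ 2 + h * L ^ 3 + L ^ 4) := by
    refine le_of_mul_le_mul_right ?_ hl'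
    nlinarith [mul_le_mul_of_nonneg_right h1 hd.le,
      mul_le_mul_of_nonneg_left h2
        (show 0 ≤ x ^ 4 + x ^ 3 * l + x ^ 2 * l ^ 2 + x * l ^ 3 + l ^ 4 by positivity)]
  rw [sigma, div_mul_eq_mul_div, div_le_iff₀ hd]
  nlinarith [mul_le_mul_of_nonneg_left key (sub_nonneg.2 hlx)]

lemma low_of_env {g lo : ℝ → ℝ} {a c ym L : ℝ} (hac : a ≤ c) (hg : AntitoneOn g (Icc a c))
    (hlo : Continuous lo) (hy0 : 0 ≤ ym)
    (hb : ∀ z ∈ Icc a c, ym ≤ lo z ∧ lo z ≤ L ∧ lo z ≤ g z) :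
    Low (∫ z in a..c, g z ^ 4) (∫ z in a..c, g z ^ 5) (∫ z in a..c, lo z ^ 4)
      (∫ z in a..c, lo z ^ 5) ym L (g a) := by
  have h0 : ∀ z ∈ Icc a c, 0 ≤ g z := fun z hz =>
    (hy0.trans (hb z hz).1).trans (hb z hz).2.2
  have i4 := pow_integrable hac hg h0 4
  have i5 := pow_integrable hac hg h0 5
  have l4 : IntervalIntegrable (fun z => lo z ^ 4) volume a c := (hlo.pow 4).intervalIntegrable _ _
  have l5 : IntervalIntegrable (fun z => lo z ^ 5) volume a c := (hlo.pow 5).intervalIntegrable _ _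
  refine ⟨?_, ?_, ?_, fun h hgh _ hh => ?_⟩
  · exact integral_mono_on hac l4 i4 fun z hz =>
      pow_le_pow_left₀ (hy0.trans (hb z hz).1) (hb z hz).2.2 4
  · exact integral_mono_on hac l5 i5 fun z hz =>
      pow_le_pow_left₀ (hy0.trans (hb z hz).1) (hb z hz).2.2 5
  · rw [← integral_sub i4 l4, ← integral_sub i5 l5, ← intervalIntegral.integral_const_mul]
    exact integral_mono_on hac ((i4.sub l4).const_mul _) (i5.sub l5) fun z hz =>
      pow_rho hy0 (hb z hz).1 (hb z hz).2.2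
  · rw [← integral_sub i4 l4, ← integral_sub i5 l5, ← intervalIntegral.integral_const_mul]
    exact integral_mono_on hac ((i5.sub l5).const_mul _) (i4.sub l4) fun z hz =>
      pow_sig (hy0.trans (hb z hz).1) (hb z hz).2.2 (hb z hz).2.1
        ((hg (left_mem_Icc.2 hac) hz hz.1).trans hgh) hh

lemma Low.add {j4 j5 J4 J5 k4 k5 K4 K5 ym L g0 g1 : ℝ} (h : Low j4 j5 J4 J5 ym L g0)
    (h' : Low k4 k5 K4 K5 ym L g1) (hg : g1 ≤ g0) :
    Low (j4 + k4) (j5 + k5) (J4 + K4) (J5 + K5) ym L g0 :=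
  ⟨add_le_add h.le4 h'.le4, add_le_add h.le5 h'.le5,
    by have := h.rho; have := h'.rho; nlinarith,
    fun hh h1 h2 h3 => by
      have := h.sig hh h1 h2 h3
      have := h'.sig hh (hg.trans h1) h2 h3
      nlinarith⟩

/-- A larger `L` keeps the relations. -/
lemma Low.mono_L {j4 j5 J4 J5 ym L L' g0 : ℝ} (h : Low j4 j5 J4 J5 ym L g0) (hL : 0 ≤ L)
    (hLL : L ≤ L') : Low j4 j5 J4 J5 ym L' g0 := by
  refine ⟨h.le4, h.le5, h.rho, fun x hg hx hx0 => le_trans ?_ (h.sig x hg (hLL.trans hx) hx0)⟩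
  refine mul_le_mul_of_nonneg_right ?_ (sub_nonneg.2 h.le5)
  have hL' : 0 ≤ L' := hL.trans hLL
  rw [sigma, sigma, div_le_div_iff₀ (by positivity) (by positivity)]
  have := sigma_step hL hL' hx0.le hLL
  linarith

lemma line_five (p q a c : ℝ) :
    (∫ z in a..c, (p + q * z) ^ 5) = (c - a) * avg5 (p + q * a) (p + q * c) := by
  obtain ⟨A, hA⟩ : ∃ A, A = p + q * a := ⟨_, rfl⟩
  obtain ⟨K, hK⟩ : ∃ K, K = q * (c - a) := ⟨_, rfl⟩
  have hsub : ∀ F : ℝ → ℝ, ∫ z in a..c, F z = (c - a) * ∫ σ in (0 : ℝ)..1, F (a + (c - a) * σ) :=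
    fun F => by rw [intervalIntegral.mul_integral_comp_add_mul]; simp
  rw [hsub, intervalIntegral.integral_congr (g := fun σ => A ^ 5 + 5 * A ^ 4 * K * σ ^ 1
      + 10 * A ^ 3 * K ^ 2 * σ ^ 2 + 10 * A ^ 2 * K ^ 3 * σ ^ 3 + 5 * A * K ^ 4 * σ ^ 4
      + K ^ 5 * σ ^ 5 + 0 * σ ^ 6)
      fun σ _ => by simp only [hA, hK]; ring, Five.poly6, avg5, hA, hK]
  ring

lemma avg5_nonneg {a c : ℝ} (ha : 0 ≤ a) (hc : 0 ≤ c) : 0 ≤ avg5 a c := by
  unfold avg5; positivity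

lemma circU_nonneg {x : ℝ} (hx : 0 ≤ x) : 0 ≤ circU x :=
  intervalIntegral.integral_nonneg hx fun z _ => by positivity

section

variable {s r : ℝ} {g : ℝ → ℝ}
variable (hs : 0 ≤ s) (hs1 : s ≤ 1) (hr : 0 ≤ r) (hsr : s * r ≤ 1) (hH : Head s r g)

include hs hs1 hr hsr hH

/-- The envelope by the circle. -/
lemma low_circ {ym : ℝ} (hy0 : 0 ≤ ym) (hys : ym ≤ s) :
    Low (∫ z in (0 : ℝ)..footT s r, g z ^ 4) (∫ z in (0 : ℝ)..footT s r, g z ^ 5)
      (circV (footT s r)) (circU (footT s r)) ym 1 (g 0) := by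
  obtain ⟨h0, htb, hb1⟩ := foot_mem hs hs1 hr hsr
  rw [← circ4 _ h0 (htb.trans hb1), circU]
  refine low_of_env (lo := fun z => √(1 - z ^ 2)) h0 hH.anti (by fun_prop) hy0 fun z hz =>
    ⟨?_, sqrt_le_one.2 (by nlinarith), hH.circle z hz⟩
  refine hys.trans (le_sqrt_of_sq_le ?_)
  have hzb : z ≤ √(1 - s ^ 2) := hz.2.trans htb
  nlinarith [sq_sqrt (show 0 ≤ 1 - s ^ 2 by nlinarith), hz.1, sqrt_nonneg (1 - s ^ 2)]

/-- The constant envelope. -/
lemma low_flat {ym L : ℝ} (hy0 : 0 ≤ ym) (hy : ym ≤ endY s r) (hL : endY s r ≤ L) :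
    Low (∫ z in (0 : ℝ)..footT s r, g z ^ 4) (∫ z in (0 : ℝ)..footT s r, g z ^ 5)
      (footT s r * endY s r ^ 4) (footT s r * endY s r ^ 5) ym L (g 0) := by
  obtain ⟨h0, -, -⟩ := foot_mem hs hs1 hr hsr
  have := low_of_env (g := g) (lo := fun _ => endY s r) h0 hH.anti continuous_const hy0 fun z hz =>
    ⟨hy, hL, hH.end_le.trans (hH.anti hz (right_mem_Icc.2 h0) hz.2)⟩
  simpa using this

/-- The chord envelope on a part of `[0, t]`. -/
lemma low_seg {a A ym L : ℝ} (ha : 0 ≤ a) (hat : a ≤ footT s r) (hA : A ≤ g a) (hy0 : 0 ≤ ym)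
    (h1 : ym ≤ A) (h2 : ym ≤ endY s r) (h3 : A ≤ L) (h4 : endY s r ≤ L) :
    Low (∫ z in a..footT s r, g z ^ 4) (∫ z in a..footT s r, g z ^ 5)
      ((footT s r - a) * avg4 A (endY s r)) ((footT s r - a) * avg5 A (endY s r)) ym L (g a) := by
  set t := footT s r with ht
  set y := endY s r with hy
  rcases hat.eq_or_lt with e | e
  · rw [← e]; simp only [intervalIntegral.integral_same, sub_self, zero_mul]
    exact ⟨le_rfl, le_rfl, by simp, fun h _ _ _ => by simp⟩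
  set q := (y - A) / (t - a) with hq
  have hta : 0 < t - a := sub_pos.2 e
  have hlin : ∀ z, A - q * a + q * z = A + (y - A) / (t - a) * (z - a) := fun z => by rw [hq]; ring
  have hsub : Icc a t ⊆ Icc 0 t := Icc_subset_Icc_left ha
  have := low_of_env (g := g) (lo := fun z => A - q * a + q * z) hat (hH.anti.mono hsub)
    (by fun_prop) hy0 (L := L) (fun z hz => ?_)
  · rw [(line_ints _ _ a t).2, line_five] at this
    have e1 : A - q * a + q * a = A := by ring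
    have e2 : A - q * a + q * t = y := by rw [hlin]; field_simp; ring
    rwa [e1, e2] at this
  have hl0 : 0 ≤ (z - a) / (t - a) := div_nonneg (by linarith [hz.1]) hta.le
  have hl1 : (z - a) / (t - a) ≤ 1 := (div_le_one hta).2 (by linarith [hz.2])
  have e3 : A + (y - A) / (t - a) * (z - a) =
      (1 - (z - a) / (t - a)) * A + (z - a) / (t - a) * y := by ring
  refine ⟨?_, ?_, ?_⟩
  · rw [hlin, e3]; nlinarith [mul_le_mul_of_nonneg_left h1 (sub_nonneg.2 hl1),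
      mul_le_mul_of_nonneg_left h2 hl0]
  · rw [hlin, e3]; nlinarith [mul_le_mul_of_nonneg_left h3 (sub_nonneg.2 hl1),
      mul_le_mul_of_nonneg_left h4 hl0]
  · rw [hlin]
    exact chord_below (hH.conc.subset hsub (convex_Icc a t)) hA hH.end_le hz

/-- The circle up to `x`, then a chord. -/
lemma low_node {x z ym L : ℝ} (hx : 0 ≤ x) (hxt : x ≤ footT s r) (hz : 0 ≤ z)
    (hxz : x ^ 2 + z ^ 2 ≤ 1) (hy0 : 0 ≤ ym) (h1 : ym ≤ z) (h2 : ym ≤ endY s r) (hL1 : 1 ≤ L)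
    (hL : endY s r ≤ L) :
    Low (∫ z in (0 : ℝ)..footT s r, g z ^ 4) (∫ z in (0 : ℝ)..footT s r, g z ^ 5)
      (circV x + (footT s r - x) * avg4 z (endY s r))
      (circU x + (footT s r - x) * avg5 z (endY s r)) ym L (g 0) := by
  obtain ⟨h0, htb, hb1⟩ := foot_mem hs hs1 hr hsr
  set t := footT s r with ht
  have hsub : Icc (0 : ℝ) x ⊆ Icc 0 t := Icc_subset_Icc_right hxt
  have hzx : z ≤ √(1 - x ^ 2) := le_sqrt_of_sq_le (by linarith)
  have l1 : Low (∫ w in (0 : ℝ)..x, g w ^ 4) (∫ w in (0 : ℝ)..x, g w ^ 5) (circV x) (circU x)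
      ym L (g 0) := by
    rw [← circ4 _ hx (hxt.trans (htb.trans hb1)), circU]
    refine low_of_env (lo := fun z => √(1 - z ^ 2)) hx (hH.anti.mono hsub) (by fun_prop) hy0
      fun w hw => ⟨h1.trans (hzx.trans (sqrt_le_sqrt (by nlinarith [hw.1, hw.2]))),
        (sqrt_le_one.2 (by nlinarith)).trans hL1, hH.circle w (hsub hw)⟩
  have l2 := low_seg hs hs1 hr hsr hH (a := x) (A := z) (ym := ym) (L := L) hx hxt
    (hzx.trans (hH.circle x ⟨hx, hxt⟩)) hy0 h1 h2 (by nlinarith) hL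
  have hg0 : ∀ w ∈ Icc (0 : ℝ) t, 0 ≤ g w := fun w hw => (sqrt_nonneg _).trans (hH.circle w hw)
  have := l1.add l2 (hH.anti (left_mem_Icc.2 h0) ⟨hx, hxt⟩ hx)
  rwa [integral_add_adjacent_intervals (pow_integrable hx (hH.anti.mono hsub)
      (fun w hw => hg0 w (hsub hw)) 4) (pow_integrable hxt (hH.anti.mono (Icc_subset_Icc_left hx))
      (fun w hw => hg0 w ⟨hx.trans hw.1, hw.2⟩) 4),
    integral_add_adjacent_intervals (pow_integrable hx (hH.anti.mono hsub)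
      (fun w hw => hg0 w (hsub hw)) 5) (pow_integrable hxt (hH.anti.mono (Icc_subset_Icc_left hx))
      (fun w hw => hg0 w ⟨hx.trans hw.1, hw.2⟩) 5)] at this

/-- If `g 0` is at least `h`, both integrals are at least those of the chord from `h`. -/
lemma j_ge {h : ℝ} (h0h : 0 ≤ h) (hh : h ≤ g 0) :
    footT s r * avg4 h (endY s r) ≤ ∫ z in (0 : ℝ)..footT s r, g z ^ 4 ∧
      footT s r * avg5 h (endY s r) ≤ ∫ z in (0 : ℝ)..footT s r, g z ^ 5 := by
  obtain ⟨h0, -, -⟩ := foot_mem hs hs1 hr hsr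
  have hy := (endY_ge hs hs1 hr).2
  have := low_seg hs hs1 hr hsr hH (a := 0) (A := h) (ym := 0) (L := max h (endY s r)) le_rfl h0 hh
    le_rfl h0h hy (le_max_left _ _) (le_max_right _ _)
  exact ⟨by simpa using this.le4, by simpa using this.le5⟩

/-- Both normalised integrals are at least `1`. -/
lemma state_bounds (hs0 : 0 < s) :
    1 ≤ stateI s r (∫ z in (0 : ℝ)..footT s r, g z ^ 4) ∧
      1 ≤ stateV s r (∫ z in (0 : ℝ)..footT s r, g z ^ 5) := by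
  obtain ⟨h0, htb, hb1⟩ := foot_mem hs hs1 hr hsr
  have hl := low_circ hs hs1 hr hsr hH (ym := 0) le_rfl hs
  set b := √(1 - s ^ 2) with hb
  set t := footT s r with ht
  have hbs : s ^ 2 = 1 - b ^ 2 := by
    rw [hb, sq_sqrt (by nlinarith)]; ring
  have hbb : 1 - s ^ 2 = b ^ 2 := by linarith
  have htL : t = b - b * s * r := by rw [ht, footT, ← hb]; ring
  obtain ⟨-, -, -, -, e4⟩ := Five.Prof5.seg_ints (b := b) (r := r) (t := t) hbs hs0 htL
  have e5 : (∫ z in t..b, ((1 - b * z) / s) ^ 5) = b * s * r * lineV s r := by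
    set L := b * s * r with hL
    set k := (1 - s ^ 2) * r with hk
    have hsub : ∀ F : ℝ → ℝ, ∫ z in t..b, F z = L * ∫ σ in (0 : ℝ)..1, F (b - L * σ) := fun F => by
      rw [intervalIntegral.mul_integral_comp_sub_mul, htL]; simp
    rw [hsub]
    have hline : ∀ σ, (1 - b * (b - L * σ)) / s = s + k * σ := fun σ => by
      rw [hk, div_eq_iff hs0.ne', hL, hbb]; linear_combination -hbs
    simp only [hline]
    rw [intervalIntegral.integral_congr (g := fun σ => s ^ 5 + 5 * s ^ 4 * k * σ ^ 1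
        + 10 * s ^ 3 * k ^ 2 * σ ^ 2 + 10 * s ^ 2 * k ^ 3 * σ ^ 3 + 5 * s * k ^ 4 * σ ^ 4
        + k ^ 5 * σ ^ 5 + 0 * σ ^ 6)
        fun σ _ => by ring, Five.poly6, lineV, hk]
    ring
  have hline : ∀ z ∈ Icc t b, √(1 - z ^ 2) ≤ (1 - b * z) / s := fun z hz => by
    have hz0 : 0 ≤ z := h0.trans hz.1
    have hz1 : z ^ 2 ≤ 1 := by nlinarith [hz.2]
    rw [le_div_iff₀ hs0]
    nlinarith [sq_sqrt (sub_nonneg.2 hz1), sq_nonneg (z - b), sq_nonneg (√(1 - z ^ 2) - s)]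
  have hc : ∀ k : ℕ, Continuous fun z : ℝ => √(1 - z ^ 2) ^ k := fun k => by fun_prop
  have hk : ∀ k : ℕ, ∫ z in t..b, √(1 - z ^ 2) ^ k ≤ ∫ z in t..b, ((1 - b * z) / s) ^ k := fun k =>
    integral_mono_on htb ((hc k).intervalIntegrable _ _)
      ((by fun_prop : Continuous fun z => ((1 - b * z) / s) ^ k).intervalIntegrable _ _)
      fun z hz => pow_le_pow_left₀ (sqrt_nonneg _) (hline z hz) k
  have hk4 := hk 4
  have hk5 := hk 5
  rw [e4, ← integral_interval_sub_left ((hc 4).intervalIntegrable 0 b)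
    ((hc 4).intervalIntegrable 0 t), circ4 _ (h0.trans htb) hb1, circ4 _ h0 (htb.trans hb1)] at hk4
  rw [e5, ← integral_interval_sub_left ((hc 5).intervalIntegrable 0 b)
    ((hc 5).intervalIntegrable 0 t)] at hk5
  have h4 := hl.le4
  have h5 := hl.le5
  have hq : circV b = b * (1 - 2 * (1 - s ^ 2) / 3 + (1 - s ^ 2) ^ 2 / 5) := by
    rw [circV, hbb]; ring
  have hcapI : capI s = 8 / 15 - circV b := by rw [capI, Five.capV, hq]
  refine ⟨?_, ?_⟩
  · rw [stateI, hcapI, ← hb, lineI]; linarith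
  · rw [stateV, capV_eq, div_mul_eq_mul_div, le_div_iff₀ (by positivity), ← hb, capB]
    simp only [circU] at h5 hk5 ⊢
    linarith

end

end Vale.Agent.P237.Six.Cert
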