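import Vale.Agent.P237.Five.CertExpr

/-!
# P237, `n = 6`: expressions and leaf checkers

Parameters are integers in the unit `10⁻⁶`, boxes in the unit `1 / 16384`. The variables of the
leaves are the roots `c = v^(1/5)` and `a = i^(1/4)`, so no powers have to be certified.
-/

namespace Vale.Agent.P237.Six.Cert

open Five.Cert (QE Box nn par int Md Mul1 qP srP oneP yP s2 s3 s5 q2 q3 r2 r3 segVP lineVP capVP
  avg4P)

/-- A constant in lowest terms. -/
def cq (n : ℤ) (d : ℕ) : QE := .cst (n / (Nat.gcd n.natAbs d : ℤ)) (d / Nat.gcd n.natAbs d)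

/-- Powers of the ingredients. -/
def s4 : QE := s2 * s2
def q4 : QE := q2 * q2
def r4 : QE := r2 * r2

/-- `∫₀¹ σᵏ L⁴` with `L = s + (1 - s²) r σ`, given the five weights. -/
def mom4P (a b c d e : QE) : QE :=
  a * s4 + b * (qP * s3 * .vR) + c * (q2 * s2 * r2) + d * (q3 * .vS * r3) + e * (q4 * r4)

/-- `∫₀¹ σ L³`. -/
def segIP : QE := segVP
/-- `∫₀¹ σ L⁴`. -/
def segQP : QE := mom4P (.cst 1 2) (.cst 4 3) (.cst 3 2) (.cst 4 5) (.cst 1 6)
/-- `(1 - s²) ∫₀¹ σ L⁴ (1 - s r σ)²`. -/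
def segTP : QE :=
  qP * (segQP
    - int 2 * srP * mom4P (.cst 1 3) (int 1) (.cst 6 5) (.cst 2 3) (.cst 1 7)
    + srP * srP * mom4P (.cst 1 4) (.cst 4 5) (int 1) (.cst 4 7) (.cst 1 8))
/-- `∫₀¹ σ L⁶`. -/
def segWP : QE :=
  .cst 1 2 * (s4 * s2) + int 2 * (qP * s5 * .vR) + .cst 15 4 * (q2 * s4 * r2)
    + int 4 * (q3 * s3 * r3) + .cst 5 2 * (q4 * s2 * r4) + .cst 6 7 * (q4 * qP * .vS * (r4 * .vR))
    + .cst 1 8 * (q4 * q2 * (r4 * r2))
/-- `∫₀¹ L⁵`. -/
def lineQP : QE :=
  s5 + .cst 5 2 * (qP * s4 * .vR) + .cst 10 3 * (q2 * s3 * r2) + .cst 5 2 * (q3 * s2 * r3)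
    + q4 * .vS * r4 + .cst 1 6 * (q4 * qP * (r4 * .vR))
/-- `∫₀ˣ (1 - z²)²`, divided by `x`, at `u = x²`. -/
def circ4P (u : QE) : QE := int 1 - .cst 2 3 * u + .cst 1 5 * (u * u)
/-- Upper bound for `∫₀ˣ (1 - z²)^(5/2)`, divided by `x`, at `u = x²`. -/
def serUP (u : QE) : QE :=
  int 1 - .cst 5 6 * u + .cst 3 8 * (u * u) - .cst 5 112 * (u * u * u)
    - .cst 5 1152 * (u * u * (u * u))
/-- The lower bound. -/
def serLP (u : QE) : QE :=
  int 1 - .cst 5 6 * u + .cst 3 8 * (u * u) - .cst 5 112 * (u * u * u)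
    - .cst 1 144 * (u * u * (u * u))
/-- The series of the cap. -/
def serCP : QE :=
  s5 * s2 * (.cst 1 7 + .cst 1 18 * s2 + .cst 3 88 * s4 + .cst 5 208 * (s3 * s3))
/-- Average of the fifth power on the segment from `a` to `y`. -/
def avg5P (a : QE) : QE :=
  .cst 1 6 * (a * a * a * a * a + a * a * a * a * yP + a * a * a * (yP * yP)
    + a * a * (yP * yP * yP) + a * (yP * yP * (yP * yP)) + yP * yP * (yP * yP) * yP)

/-- Parameters of the bounds for the state. -/
structure Env where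
  md : Md
  al : ℤ
  be : ℤ
  nh : ℤ
  cap : Option ℤ
  m4 : Mul1
  m5l : Mul1
  m5h : Mul1
  ym : ℤ
  L : ℤ

namespace Env

variable (E : Env)

/-- Lower bound for `√(1 - s²)`. -/
def bLo : QE := par E.al + par E.be * s2
/-- Upper bound for `√(1 - s²)`. -/
def bHi : QE := .cst 1 2 * (par E.nh + .cst 1000000 E.nh.toNat * qP)

/-- Lower bound for `√(1 - s²) * D`. -/
def mLo (m : Mul1) (D : QE) : QE :=
  (if m.pos then E.bLo else E.bHi) * D - (E.bHi - E.bLo) * par m.e
/-- Upper bound for `√(1 - s²) * D`. -/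
def mHi (m : Mul1) (D : QE) : QE :=
  (if m.pos then E.bHi else E.bLo) * D + (E.bHi - E.bLo) * par m.e
/-- The condition for both. -/
def mTest (m : Mul1) (D : QE) : QE := if m.pos then D + par m.e else par m.e - D

/-- The coefficient of `√(1 - s²)` in `J₄`. -/
def d4 : QE :=
  match E.md with
  | .circ => oneP * circ4P (qP * (oneP * oneP))
  | .flat => oneP * (yP * yP * (yP * yP))
  | .chord => oneP * avg4P (int 1)
  | .node _ z => oneP * avg4P (par z)
/-- The rest of `J₄`. -/
def c4 : QE :=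
  match E.md with
  | .node x z => par x * (circ4P (par x * par x) - avg4P (par z))
  | _ => int 0
/-- The coefficient of `√(1 - s²)` in `J₅`, from below or above. -/
def d5 (ser : QE → QE) : QE :=
  match E.md with
  | .circ => oneP * ser (qP * (oneP * oneP))
  | .flat => oneP * (yP * yP * (yP * yP) * yP)
  | .chord => oneP * avg5P (int 1)
  | .node _ z => oneP * avg5P (par z)
/-- The rest of `J₅`. -/
def c5 (ser : QE → QE) : QE :=
  match E.md with
  | .node x z => par x * (ser (par x * par x) - avg5P (par z))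
  | _ => int 0

/-- The cap's share of the factor of `√(1 - s²)` in `v`. -/
def capF (f : QE) (ser : QE → QE) : QE :=
  match E.cap with
  | none => f - ser qP
  | some _ => f
/-- The factor of `√(1 - s²)` in `8/15 (i - 1)`. -/
def fI : QE := E.d4 + srP * lineVP - capVP
/-- The factor of `√(1 - s²)` in `v`, from below. -/
def fVl : QE := E.capF (E.d5 serLP + srP * lineQP) serUP
/-- The factor of `√(1 - s²)` in `v`, from above. -/
def fVh : QE := E.capF (E.d5 serUP + srP * lineQP) serLP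
/-- The part of the cap in `v`, from below. -/
def capLoP : QE :=
  match E.cap with
  | none => .cst 15707960 32000000
  | some _ => serCP
/-- The part of the cap in `v`, from above. -/
def capHiP : QE :=
  match E.cap with
  | none => .cst 15707965 32000000
  | some T => serCP + par T * .cst 7 384 * (s5 * s5 * s5)

/-- Lower bound for `i` at the envelope. -/
def iLo : QE := int 1 + .cst 15 8 * (E.mLo E.m4 E.fI + E.c4)
/-- Upper bound for `i` at the envelope. -/
def iHi : QE := int 1 + .cst 15 8 * (E.mHi E.m4 E.fI + E.c4)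
/-- Lower bound for `v` at the envelope. -/
def vLo : QE := .cst 32000000 15707965 * (E.mLo E.m5l E.fVl + E.c5 serLP + E.capLoP)
/-- Upper bound for `v` at the envelope. -/
def vHi : QE := .cst 32000000 15707960 * (E.mHi E.m5h E.fVh + E.c5 serUP + E.capHiP)

/-- The factor for `i` if `g 0 = h`. -/
def hI (h : ℤ) : QE := oneP * avg4P (par h) + srP * lineVP - capVP
/-- The factor for `v` if `g 0 = h`. -/
def hV (h : ℤ) : QE := E.capF (oneP * avg5P (par h) + srP * lineQP) serUP
/-- Lower bound for `i` if `g 0 ≥ h`. -/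
def iTop (h : ℤ) (m : Mul1) : QE := int 1 + .cst 15 8 * E.mLo m (hI h)
/-- Lower bound for `v` if `g 0 ≥ h`. -/
def vTop (h : ℤ) (m : Mul1) : QE := .cst 32000000 15707965 * (E.mLo m (E.hV h) + E.capLoP)

/-- `(al + be x) / 10⁶ ≤ √(1 - x)` at `x = (A / 16384)²`. -/
def chordOk (A : ℤ) : Bool :=
  let w := E.al * 268435456 + E.be * A ^ 2
  w ≤ 0 || w ^ 2 ≤ 1000000000000 * 268435456 * (268435456 - A ^ 2)

/-- The conditions on `ym` and `L`, and on the node. -/
def mdOk (X : Box) : Bool :=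
  0 ≤ E.ym && match E.md with
    | .circ => E.ym * 16384 ≤ X.A * 1000000 && 1000000 ≤ E.L
    | .flat => nn X (yP - par E.ym) && nn X (par E.L - yP)
    | .chord =>
        E.ym ≤ 1000000 && 1000000 ≤ E.L && nn X (yP - par E.ym) && nn X (par E.L - yP)
    | .node x z => E.ym ≤ z && 1000000 ≤ E.L && 0 ≤ x && x ≤ 1000000 &&
        x ^ 2 + z ^ 2 ≤ 1000000000000 && nn X (yP - par E.ym) && nn X (par E.L - yP) &&
        nn X (E.bLo * oneP - par x)

/-- The cap bound. -/
def capOk (X : Box) : Bool :=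
  match E.cap with
  | none => true
  | some T => 0 ≤ T && 1000000 * 268435456 ≤ T * (268435456 - X.B ^ 2)

/-- The conditions for the bounds of the state. -/
def ok (X : Box) : Bool :=
  X.ok && 0 < E.nh && E.chordOk X.A && E.chordOk X.B && E.mdOk X && E.capOk X &&
    0 ≤ E.m4.e && 0 ≤ E.m5l.e && 0 ≤ E.m5h.e &&
    nn X (mTest E.m4 E.fI) && nn X (mTest E.m5l E.fVl) && nn X (mTest E.m5h E.fVh)

end Env

/-- `(15 π / 64) ∫ σ L³` from below. -/
def pLo : QE := .cst 73631 100000 * segIP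
/-- The part of both derivatives without the state. -/
def restP : QE := .cst 199 125 * segWP - int 8 * segTP

/-- The lower bound for the first derivative at `c = x`, with `i` and `c⁻⁴` given. -/
def lowP (x : ℤ) (i t : QE) : QE :=
  (.cst 921 50 + .cst 7 2 * par x) * pLo
    + ((.cst 1 90 * par x - .cst 1577 450 - cq 1842000000 (125 * x).toNat) * segQP
        + .cst 7 10 * t * (i * segQP))
    + restP

/-- `x⁻⁴`. -/
def invP4 (x : ℤ) : QE := cq (10 ^ 24) (x ^ 4).toNat
/-- `x⁵`. -/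
def powP5 (x : ℤ) : QE := cq (x ^ 5) (10 ^ 30)
/-- `x⁴`. -/
def powP4 (x : ℤ) : QE := cq (x ^ 4) (10 ^ 24)
/-- The tangent of `v^(-4/5)` at `k⁵`, at `v = x⁵`. -/
def tanP (k x : ℤ) : QE := cq ((9 * k ^ 5 - 4 * x ^ 5) * 10 ^ 24) (5 * k ^ 9).toNat
/-- The chord between `v = x₁⁵` and `v = x₂⁵`. -/
def chd5 (x1 x2 : ℤ) (a c z : QE) : QE :=
  cq (10 ^ 30) (x2 ^ 5 - x1 ^ 5).toNat * (powP5 x2 * a - powP5 x1 * c + z * (c - a))
/-- The chord between `i = x₁⁴` and `i = x₂⁴`. -/
def chd4 (x1 x2 : ℤ) (a c z : QE) : QE :=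
  cq (10 ^ 24) (x2 ^ 4 - x1 ^ 4).toNat * (powP4 x2 * a - powP4 x1 * c + z * (c - a))
/-- `i` minus the tangent of `v^(4/5)` at `c⁵`. -/
def gapP (c : ℤ) (z i : QE) : QE :=
  i - cq (c ^ 4) (5 * 10 ^ 24) - cq 4000000 (5 * c).toNat * z

/-- One interval `[x₁⁵, x₂⁵]` of `v`. -/
structure Seg where
  x2 : ℤ
  k : ℤ
  c0 : ℤ
  w : ℤ
  h : ℤ
  sig : ℤ
  mh : Mul1

/-- The slope of the relation between the excesses. -/
def Seg.kk (S : Seg) : QE := cq (75 * 3141592 * S.sig) (256 * 10 ^ 12)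
/-- The gain from the excess of `i`. -/
def Seg.gain (S : Seg) (E : Env) (z : QE) : QE :=
  cq (7 * 10 ^ 24) (10 * S.x2 ^ 4).toNat * S.kk * ((z - E.vHi) * segQP)

/-- The conditions on the constants of an interval. -/
def Seg.ok (S : Seg) (E : Env) (X : Box) (x1 : ℤ) : Bool :=
  1000000 ≤ x1 && x1 < S.x2 && 0 < S.k && 0 < S.c0 && 0 ≤ S.w && 0 ≤ S.sig && E.L ≤ S.h &&
    0 < S.h && S.sig * (S.h ^ 4 + S.h ^ 3 * E.L + S.h ^ 2 * E.L ^ 2 + S.h * E.L ^ 3 + E.L ^ 4) ≤
      10 ^ 12 * ((S.h + E.L) * (S.h ^ 2 + E.L ^ 2)) &&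
    (2450000 ≤ S.h || (0 ≤ S.mh.e && nn X (Env.mTest S.mh (E.hV S.h)) &&
      nn X (E.vTop S.h S.mh - powP5 S.x2)))

/-- The lower bound of the first derivative at an end, with `i` split at `I`. -/
def Seg.endP (S : Seg) (E : Env) (I x : ℤ) : QE :=
  lowP x (par I) (tanP S.k x) + cq (7 * 10 ^ 24) (10 * S.x2 ^ 4).toNat * ((E.iLo - par I) * segQP)
/-- The test at the left end of an inner interval. -/
def Seg.inner (S : Seg) (E : Env) (I x1 : ℤ) : QE :=
  S.endP E I x1 + S.gain E (powP5 x1)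
    + par S.w * gapP S.c0 (powP5 x1) (E.iLo + S.kk * (powP5 x1 - E.vHi))
/-- The test at the right end. -/
def Seg.right (S : Seg) (E : Env) (I : ℤ) : QE :=
  S.endP E I S.x2 + S.gain E (powP5 S.x2)
    + par S.w * gapP S.c0 (powP5 S.x2) (E.iLo + S.kk * (powP5 S.x2 - E.vHi))
/-- The test at an end of the range of `v` at the envelope. -/
def Seg.first (S : Seg) (E : Env) (I x1 : ℤ) (z : QE) : QE :=
  chd5 x1 S.x2 (lowP x1 (par I) (tanP S.k x1)) (lowP S.x2 (par I) (tanP S.k S.x2)) z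
    + cq (7 * 10 ^ 24) (10 * S.x2 ^ 4).toNat * ((E.iLo - par I) * segQP)
    + par S.w * gapP S.c0 z E.iLo

/-- The intervals after the first, then the bound `It` of `i` on the tail. -/
def chainOk (E : Env) (X : Box) (I It : ℤ) (nt : Mul1) : Seg → List Seg → Bool
  | p, [] => 0 ≤ It && It * 10 ^ 12 ≤ 5 * p.x2 ^ 3 &&
      nn X (E.iLo + p.kk * (powP5 p.x2 - E.vHi) - par It) &&
      (2450000 ≤ p.h || (0 ≤ nt.e && nn X (Env.mTest nt (Env.hI p.h)) &&
        nn X (E.iTop p.h nt - par It))) &&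
      nn X (lowP p.x2 (par It) (invP4 p.x2))
  | p, S :: l => S.ok E X p.x2 && nn X (S.inner E I p.x2) && nn X (S.right E I) &&
      chainOk E X I It nt S l

/-- Leaves of the first derivative. -/
inductive LeafA where
  | start (x : ℤ) (E : Option Env)
  | lam (E : Env) (x1 I : ℤ) (l : List Seg) (It : ℤ) (nt : Mul1)

/-- The check of a leaf of the first derivative. -/
def LeafA.ok (X : Box) : LeafA → Bool
  | .start x none => X.ok && x == 1000000 && nn X (lowP x (int 1) (invP4 x))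
  | .start x (some E) => E.ok X && 1000000 ≤ x && nn X (E.vLo - powP5 x) &&
      nn X (cq (5 * x ^ 3) (10 ^ 18) - E.iLo) && nn X (lowP x E.iLo (invP4 x))
  | .lam _ _ _ [] _ _ => false
  | .lam E x1 I (S :: l) It nt => E.ok X && S.ok E X x1 && nn X (E.vLo - powP5 x1) && 0 ≤ I &&
      nn X (E.iLo - par I) && nn X (S.first E I x1 E.vLo) && nn X (S.first E I x1 E.vHi) &&
      nn X (S.right E I) && chainOk E X I It nt S l

/-- The coefficient of `a²`. -/
def sqC : QE := .cst 4801 120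
/-- The coefficient of `-a`. -/
def linP : QE := .cst 35 2 * pLo + int 32 * segQP
/-- The part free of `a`. -/
def conP : QE := int 14 * segQP + restP
/-- The lower bound for the second derivative at `a = x`. -/
def highP (x : ℤ) : QE := sqC * (par x * par x) * pLo - par x * linP + conP
/-- Its slope there. -/
def slopeP (x : ℤ) : QE := int 2 * sqC * par x * pLo - linP
/-- The affine lower bound on `[x₁⁴, x₂⁴]`. -/
def highS (x1 x2 m : ℤ) (z : QE) : QE :=
  sqC * (chd4 x1 x2 (par x1 * par x1) (par x2 * par x2) z * pLo)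
    - (cq (3 * m) 4000000 + cq (10 ^ 18) (4 * m ^ 3).toNat * z) * linP + conP

/-- Leaves of the second derivative. -/
inductive LeafB where
  | start (x : ℤ) (E : Option Env)
  | weight (E : Env) (x1 x2 m w : ℤ)

/-- The check of a leaf of the second derivative. -/
def LeafB.ok (X : Box) : LeafB → Bool
  | .start x none => X.ok && x == 1000000 && nn X (highP x) && nn X (slopeP x)
  | .start x (some E) => E.ok X && 1000000 ≤ x && nn X (E.iLo - powP4 x) && nn X (highP x) &&
      nn X (slopeP x)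
  | .weight E x1 x2 m w => E.ok X && 1000000 ≤ x1 && x1 < x2 && 0 < m && 0 ≤ w &&
      nn X (E.iLo - powP4 x1) && nn X (highP x2) && nn X (slopeP x2) &&
      (let V := fun z : QE => E.vLo - chd4 x1 x2 (powP5 x1) (powP5 x2) z
       let rho := QE.cst (64 * E.ym) 47123895
       nn X (highS x1 x2 m E.iLo + par w * V E.iLo) &&
         nn X (highS x1 x2 m E.iHi + par w * V E.iHi) &&
         nn X (highS x1 x2 m (powP4 x2)
           + par w * (E.vLo + rho * (powP4 x2 - E.iHi) - powP5 x2)))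

/-- Partition trees. -/
inductive Tree (α : Type) where
  | leaf (a : α)
  | outT
  | outY
  | sS (l r : Tree α)
  | sR (l r : Tree α)

/-- The checker; `outY` excludes heights above `49/20`. -/
def Tree.check {α : Type} (ok : Box → α → Bool) : Tree α → Box → Bool
  | .leaf a, X => ok X a
  | .outT, X => 268435456 < X.A * X.A' && 0 ≤ X.A && 0 ≤ X.A'
  | .outY, X => 49 * 4398046511104 < 20 * (X.A * 268435456 + (268435456 - X.A ^ 2) * X.A') &&
      49 * 4398046511104 < 20 * (X.B * 268435456 + (268435456 - X.B ^ 2) * X.A') &&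
      0 ≤ X.A' && X.A ≤ X.B && 0 ≤ X.A && X.B ≤ 16384
  | .sS l g, X => l.check ok { X with B := (X.A + X.B) / 2 } &&
      g.check ok { X with A := (X.A + X.B) / 2 }
  | .sR l g, X => l.check ok { X with B' := (X.A' + X.B') / 2 } &&
      g.check ok { X with A' := (X.A' + X.B') / 2 }

end Vale.Agent.P237.Six.Cert
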