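import Vale.Agent.P237.Six.CertVals

/-!
# P237, `n = 6`: a checked leaf of the second derivative is sound
-/

namespace Vale.Agent.P237.Six.Cert

open Real Set
open Five (footT endY)
open Five.Cert (QE Box nn par int Md Mul1 u6 chd chd_right affine_nonneg nn_sound val_add val_sub
  val_mul val_par val_int)

/-- A checked leaf of the second derivative is sound. -/
theorem high_sound (he : EnvSound) : HighSound := by
  intro l X s r g hl hX hD hV
  obtain ⟨hP, hPl, hQ, hi1, -⟩ := pt_facts hD
  have hd : derHigh s r (gI s r g) (gV s r g) =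
      dHigh (15 * π / 64 * segI s r) (segV s r) (restR s r) (gI s r g) (gV s r g) := by
    simp only [derHigh, dHigh, restR]; ring
  rw [hd]
  refine le_trans ?_ (high_reduce hP hPl hi1 hV)
  obtain ⟨ha, e4, e5⟩ := root_four hi1
  set a := gI s r g ^ (1 / 4 : ℝ)
  cases l with
  | start x E =>
    have hxa : u6 x ≤ a ∧ nn X (highP x) = true ∧ nn X (slopeP x) = true ∧ X.ok = true := by
      cases E with
      | none =>
        simp only [LeafB.ok, Bool.and_eq_true, beq_iff_eq] at hl
        obtain ⟨⟨⟨ho, hx⟩, h1⟩, h2⟩ := hl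
        subst hx
        exact ⟨le_of_eq_of_le (by norm_num [u6]) ha, h1, h2, ho⟩
      | some E =>
        simp only [LeafB.ok, Bool.and_eq_true, decide_eq_true_eq] at hl
        obtain ⟨⟨⟨⟨hE, hx⟩, h0⟩, h1⟩, h2⟩ := hl
        have ho : X.ok = true := by
          simp only [Env.ok, Bool.and_eq_true] at hE
          exact hE.1.1.1.1.1.1.1.1.1.1.1
        obtain ⟨il, vl, hS⟩ := he E X s r g hE hX hD
        have h := nn_sound hX ho h0
        simp only [val_sub, val_powP4] at h
        exact ⟨le_of_pow_le_pow_left₀ (by norm_num) (by linarith)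
          (show u6 x ^ 4 ≤ a ^ 4 by rw [← e4]; linarith [hS.ilo, hS.i_ge]), h1, h2, ho⟩
    obtain ⟨hxa, h1, h2, ho⟩ := hxa
    have t := nn_sound hX ho h1
    have t' := nn_sound hX ho h2
    rw [val_highP] at t
    rw [val_slopeP] at t'
    exact high_tail hPl hxa t t'
  | weight E x1 x2 m w =>
    simp only [LeafB.ok, Bool.and_eq_true, decide_eq_true_eq] at hl
    obtain ⟨⟨⟨⟨⟨⟨⟨⟨hE, hx⟩, hlt⟩, hm⟩, hw⟩, hlo⟩, h0⟩, h0'⟩, ⟨t1, t2⟩, t3⟩ := hl
    have ho : X.ok = true := by
      simp only [Env.ok, Bool.and_eq_true] at hE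
      exact hE.1.1.1.1.1.1.1.1.1.1.1
    obtain ⟨il, vl, hS⟩ := he E X s r g hE hX hD
    rcases le_or_gt (u6 x2) a with h | h
    · have t := nn_sound hX ho h0
      have t' := nn_sound hX ho h0'
      rw [val_highP] at t
      rw [val_slopeP] at t'
      exact high_tail hPl h t t'
    have hx0 : 0 ≤ x1 := by omega
    have hx1 : 0 < u6 x1 := u6_pos (by omega)
    have hlt' : u6 x1 < u6 x2 := by
      have : (x1 : ℝ) < x2 := by exact_mod_cast hlt
      unfold u6; linarith
    have hlo := nn_sound hX ho hlo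
    simp only [val_sub, val_powP4] at hlo
    have hxa : u6 x1 ≤ a := le_of_pow_le_pow_left₀ (by norm_num) (by linarith)
      (show u6 x1 ^ 4 ≤ a ^ 4 by rw [← e4]; linarith [hS.ilo, hS.i_ge])
    obtain ⟨hS1, hS2⟩ := high_chord (R := restR s r) hPl hQ hx1 hxa h.le hlt' (u6_pos hm)
    rw [← e4] at hS1 hS2
    have hw0 : 0 ≤ u6 w := u6_nonneg hw
    have hym : (0 : ℝ) ≤ E.ym := by
      simp only [Env.ok, Env.mdOk, Bool.and_eq_true, decide_eq_true_eq] at hE
      exact_mod_cast hE.1.1.1.1.1.1.1.2.1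
    have hrho0 : (0 : ℝ) ≤ 64 * (E.ym : ℝ) / 47123895 := by positivity
    have hrho : 64 * (E.ym : ℝ) / 47123895 * (gI s r g - il) ≤ gV s r g - vl := by
      refine le_trans (mul_le_mul_of_nonneg_right ?_ (sub_nonneg.2 hS.i_ge)) hS.rho
      rw [u6, show 64 * ((E.ym : ℝ) / 1000000) / (15 * π) =
        64 * (E.ym : ℝ) / (1000000 * (15 * π)) by ring]
      refine div_le_div_of_nonneg_left (by positivity) (by positivity) ?_
      linarith [pi_lt_d6]
    have t1 := nn_sound hX ho t1
    have t2 := nn_sound hX ho t2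
    have t3 := nn_sound hX ho t3
    simp only [val_add, val_mul, val_sub, val_par, val_chd4 hx0 hlt, val_highS hx0 hlt hm,
      val_powP4, val_powP5, QE.val] at t1 t2 t3
    push_cast at t1 t2 t3
    set K := fun z : ℝ => 4801 / 120 * (chd (u6 x1 ^ 4) (u6 x2 ^ 4) (u6 x1 * u6 x1) (u6 x2 * u6 x2) z
        * lowI s r)
      - (3 * u6 m / 4 + 1 / (4 * u6 m ^ 3) * z) * (35 / 2 * lowI s r + 32 * segV s r)
      + (14 * segV s r + restR s r) with hK
    set V := fun z : ℝ => chd (u6 x1 ^ 4) (u6 x2 ^ 4) (u6 x1 ^ 5) (u6 x2 ^ 5) z with hVd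
    set L := fun z => K z + u6 w * (E.vLo.val s r + 64 * (E.ym : ℝ) / 47123895 * (z - il) - V z)
      with hL
    have hLi : L (gI s r g) ≤ highF (lowI s r) (segV s r) (restR s r) a := by
      rw [e5] at hV
      have := mul_nonpos_of_nonneg_of_nonpos hw0
        (show E.vLo.val s r + 64 * (E.ym : ℝ) / 47123895 * (gI s r g - il) - V (gI s r g) ≤ 0 by
          simp only [hVd]; linarith [hS.vlo])
      simp only [hL, hK] at this ⊢
      linarith
    refine le_trans (affine_nonneg (f := L) ?_ hS.i_ge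
      (show gI s r g ≤ u6 x2 ^ 4 by rw [e4]; exact pow_le_pow_left₀ (by linarith) h.le 4) ?_ ?_) hLi
    · intro θ φ x y hθ
      obtain rfl : φ = 1 - θ := by linarith
      simp only [hL, hK, hVd, chd]; ring
    · set M := fun z => K z + u6 w * (E.vLo.val s r - V z) with hM
      have : 0 ≤ M il := affine_nonneg (f := M) (by
        intro θ φ x y hθ
        obtain rfl : φ = 1 - θ := by linarith
        simp only [hM, hK, hVd, chd]; ring) hS.ilo hS.ihi
        (by simp only [hM, hK, hVd]; linarith) (by simp only [hM, hK, hVd]; linarith)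
      simp only [hL, hM, sub_self, mul_zero, add_zero] at this ⊢
      exact this
    · have g0 : 64 * (E.ym : ℝ) / 47123895 * (u6 x2 ^ 4 - E.iHi.val s r) ≤
          64 * (E.ym : ℝ) / 47123895 * (u6 x2 ^ 4 - il) :=
        mul_le_mul_of_nonneg_left (by linarith [hS.ihi]) hrho0
      have := mul_le_mul_of_nonneg_left g0 hw0
      simp only [hL, hK, hVd, chd_right (show u6 x1 ^ 4 < u6 x2 ^ 4 from
        pow_lt_pow_left₀ hlt' hx1.le (by norm_num))] at t3 ⊢
      linarith

end Vale.Agent.P237.Six.Cert
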