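import Vale.Agent.P237.Six.Assembly
import Vale.Agent.P237.Six.OneDim

/-!
# P237, `n = 6`: Petty's inequality with equality case from the certified inequalities

`KeyFive` is proved in `Five.CertFinal`; it enters only through the five-dimensional inequality.
-/

namespace Vale.Agent.P237.Six

open MeasureTheory Set
open scoped RealInnerProductSpace

/-- The public form, given the two certificates. -/
theorem petty_six_of_key (h5 : Five.KeyFive) (h : KeySix) (K : Set (E 6)) (hc : Convex ℝ K)
    (hk : IsCompact K) (hi : (interior K).Nonempty) :
    (∀ u : E 6, ‖u‖ = 1 →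
      IsGreatest ((fun y => ⟪y, u⟫) '' ProjectionBody K) (shadow K u)) ∧
    4194304 / 140625 * (volume K).toReal ^ 5 ≤ (volume (ProjectionBody K)).toReal ∧
    ((volume (ProjectionBody K)).toReal = 4194304 / 140625 * (volume K).toReal ^ 5 ↔
      IsEllipsoid6 K) :=
  petty_six (pettyFiveVol_of (Five.oneDimFive_of_key h5)) (oneDimSix_of_key h) K hc hk hi

end Vale.Agent.P237.Six
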