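import Vale.Agent.P237.Five.CertFinal
import Vale.Agent.P237.Six.CertData
import Vale.Agent.P237.Six.CertKey
import Vale.Agent.P237.Six.Glue

/-!
# P237, `n = 6`: Petty's inequality with its equality case
-/

namespace Vale.Agent.P237.Six

open MeasureTheory Set
open Five (keyFive)
open scoped RealInnerProductSpace

/-- `KeySix` holds. -/
theorem keySix : KeySix := Cert.keySix_of Cert.data_ok

/-- Petty's projection-volume conjecture in dimension six, with the equality case. -/
theorem petty_six_full (K : Set (E 6)) (hc : Convex ℝ K) (hk : IsCompact K)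
    (hi : (interior K).Nonempty) :
    (∀ u : E 6, ‖u‖ = 1 →
      IsGreatest ((fun y => ⟪y, u⟫) '' ProjectionBody K) (shadow K u)) ∧
    4194304 / 140625 * (volume K).toReal ^ 5 ≤ (volume (ProjectionBody K)).toReal ∧
    ((volume (ProjectionBody K)).toReal = 4194304 / 140625 * (volume K).toReal ^ 5 ↔
      IsEllipsoid6 K) :=
  petty_six_of_key keyFive keySix K hc hk hi

end Vale.Agent.P237.Six
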