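import Vale.Agent.P237.Six.CertVals

/-!
# P237, `n = 6`: a checked leaf of the first derivative is sound

To the right of a point where the bound is nonnegative it stays so; the intervals before that are
tested with the constraint `i ≤ v^(4/5)` entering with a weight, `i` being bounded below through the
relation of the excesses.
-/

namespace Vale.Agent.P237.Six.Cert

open Real Set
open Five (footT endY)
open Five.Cert (QE Box nn par int Md Mul1 u6 chd chd_right affine_nonneg nn_sound val_add val_sub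
  val_mul val_par val_int)

lemma envOk_box {E : Env} {X : Box} (h : E.ok X = true) : X.ok = true := by
  simp only [Env.ok, Bool.and_eq_true] at h
  exact h.1.1.1.1.1.1.1.1.1.1.1

lemma L_nonneg {E : Env} {X : Box} {s r : ℝ} (h : E.ok X = true) (hX : X.Mem s r) (hs : 0 ≤ s)
    (hs1 : s ≤ 1) (hr : 0 ≤ r) : 0 ≤ u6 E.L := by
  have hb := envOk_box h
  simp only [Env.ok, Bool.and_eq_true] at h
  have hm := h.1.1.1.1.1.1.1.2
  have key : 1000000 ≤ E.L → 0 ≤ u6 E.L := fun hL => u6_nonneg (by omega)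
  unfold Env.mdOk at hm
  cases hmd : E.md with
  | flat =>
    simp only [hmd, Bool.and_eq_true] at hm
    have := nn_sound hX hb hm.2.2
    simp only [val_sub, val_par, Five.Cert.val_yP] at this
    linarith [(Five.Cert.endY_ge hs hs1 hr).2]
  | circ => simp only [hmd, Bool.and_eq_true, decide_eq_true_eq] at hm; exact key hm.2.2
  | chord => simp only [hmd, Bool.and_eq_true, decide_eq_true_eq] at hm; exact key hm.2.1.1.2
  | node x z =>
    simp only [hmd, Bool.and_eq_true, decide_eq_true_eq] at hm; exact key hm.2.1.1.1.1.1.1.2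

variable {X : Box} {s r : ℝ} {g : ℝ → ℝ} {E : Env} {S : Seg} {x1 : ℤ} {il vl : ℝ}

lemma val_kk (S : Seg) (s r : ℝ) : S.kk.val s r = 75 * 3141592 / 256000000 * u6 S.sig := by
  rw [Seg.kk, val_cq, u6]
  norm_num
  ring

/-- The constants of an interval. -/
lemma seg_consts (h : S.ok E X x1 = true) : 0 < x1 ∧ 1 ≤ u6 x1 ∧ u6 x1 < u6 S.x2 ∧ x1 < S.x2 ∧
    0 < S.k ∧ 0 < S.c0 ∧ 0 ≤ u6 S.w ∧ 0 ≤ u6 S.sig ∧ u6 E.L ≤ u6 S.h ∧ 0 < u6 S.h := by
  simp only [Seg.ok, Bool.and_eq_true, decide_eq_true_eq] at h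
  obtain ⟨⟨⟨⟨⟨⟨⟨⟨⟨h1, h2⟩, h3⟩, h4⟩, h5⟩, h6⟩, h7⟩, h8⟩, -⟩, -⟩ := h
  refine ⟨by omega, u6_one_le h1, ?_, h2, h3, h4, u6_nonneg h5, u6_nonneg h6, ?_, u6_pos h8⟩
  · have : (x1 : ℝ) < S.x2 := by exact_mod_cast h2
    unfold u6; linarith
  · have : (E.L : ℝ) ≤ S.h := by exact_mod_cast h7
    unfold u6; linarith

/-- The relation below the height of an interval. -/
lemma seg_rel (h : S.ok E X x1 = true) (hE : E.ok X = true) (hX : X.Mem s r) (D : Dom s r g)
    (St : State E s r g il vl) (hg : g 0 ≤ u6 S.h) :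
    S.kk.val s r * (gV s r g - vl) ≤ gI s r g - il := by
  obtain ⟨-, -, -, -, -, -, -, hsg, hLh, hh0⟩ := seg_consts h
  have hL0 := L_nonneg hE hX D.s0.le D.s1 D.r0
  simp only [Seg.ok, Bool.and_eq_true, decide_eq_true_eq] at h
  have hsig := h.1.2
  have hs2 : u6 S.sig ≤ sigma (u6 S.h) (u6 E.L) := by
    rw [sigma, le_div_iff₀ (by positivity)]
    have h3 : (S.sig : ℝ) * ((S.h : ℝ) ^ 4 + (S.h : ℝ) ^ 3 * E.L + (S.h : ℝ) ^ 2 * (E.L : ℝ) ^ 2
        + S.h * (E.L : ℝ) ^ 3 + (E.L : ℝ) ^ 4) ≤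
        10 ^ 12 * ((S.h + E.L) * ((S.h : ℝ) ^ 2 + (E.L : ℝ) ^ 2)) := by
      exact_mod_cast hsig
    unfold u6
    linear_combination h3 / 1000000000000000000000000000000
  refine le_trans (mul_le_mul_of_nonneg_right ?_ (sub_nonneg.2 St.v_ge)) (St.sig _ hg hLh hh0)
  rw [val_kk]
  exact mul_le_mul (by linarith [pi_gt_d6]) hs2 hsg (by positivity)

/-- Before the end of an interval the height is below that of the interval. -/
lemma seg_small (h : S.ok E X x1 = true) (hE : E.ok X = true) (hX : X.Mem s r) (D : Dom s r g)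
    (St : State E s r g il vl) (hv : gV s r g < u6 S.x2 ^ 5) : g 0 ≤ u6 S.h := by
  obtain ⟨-, -, -, -, -, -, -, -, -, hh0⟩ := seg_consts h
  simp only [Seg.ok, Bool.and_eq_true, Bool.or_eq_true, decide_eq_true_eq] at h
  by_contra hg
  rcases h.2 with ht | ⟨⟨he, hm⟩, hb⟩
  · have : (2450000 : ℝ) ≤ S.h := by exact_mod_cast ht
    have := D.head.le_top
    simp only [u6, not_le] at hg
    linarith
  · have h1 := St.top_v S.h S.mh (not_le.1 hg).le hh0.le he (nn_sound hX (envOk_box hE) hm)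
    have h2 := nn_sound hX (envOk_box hE) hb
    simp only [val_sub, val_powP5] at h2
    linarith

lemma kk_nonneg (h : S.ok E X x1 = true) : 0 ≤ S.kk.val s r := by
  obtain ⟨-, -, -, -, -, -, -, hsg, -, -⟩ := seg_consts h
  rw [val_kk]; positivity

lemma gain_const (hx : 0 < S.x2) (s r : ℝ) : (cq (7 * 10 ^ 24) (10 * S.x2 ^ 4).toNat).val s r =
    7 / 10 * (1 / u6 S.x2 ^ 4) := by
  have hx' : (0 : ℝ) < S.x2 := by exact_mod_cast hx
  rw [val_cq, toNat_cast (by positivity), u6]
  push_cast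
  field_simp
  norm_num

lemma val_endP (hx : 0 < S.x2) {x : ℤ} (h : 0 < x) (hk : 0 < S.k) (I : ℤ) (s r : ℝ) :
    (S.endP E I x).val s r =
      lowF (lowI s r) (segV s r) (restR s r) (u6 x) (u6 I) (tanF (u6 S.k) (u6 x))
        + 7 / 10 * (1 / u6 S.x2 ^ 4) * ((E.iLo.val s r - u6 I) * segV s r) := by
  obtain ⟨-, e2, -⟩ := seg_vals s r
  simp only [Seg.endP, val_add, val_mul, val_sub, val_lowP h, val_tanP hk, val_par, e2,
    gain_const hx]

lemma val_gain (hx : 0 < S.x2) (s r : ℝ) (z : QE) : (S.gain E z).val s r =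
    7 / 10 * (1 / u6 S.x2 ^ 4) * S.kk.val s r * ((z.val s r - E.vHi.val s r) * segV s r) := by
  obtain ⟨-, e2, -⟩ := seg_vals s r
  simp only [Seg.gain, val_mul, val_sub, e2, gain_const hx]

/-- The affine function tested at the ends of an interval. -/
noncomputable def segL (S : Seg) (s r : ℝ) (x1 I : ℤ) (J b z : ℝ) : ℝ :=
  chd (u6 x1 ^ 5) (u6 S.x2 ^ 5)
      (lowF (lowI s r) (segV s r) (restR s r) (u6 x1) (u6 I) (tanF (u6 S.k) (u6 x1)))
      (lowF (lowI s r) (segV s r) (restR s r) (u6 S.x2) (u6 I) (tanF (u6 S.k) (u6 S.x2))) z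
    + 7 / 10 * (1 / u6 S.x2 ^ 4) * ((J + S.kk.val s r * (z - b) - u6 I) * segV s r)
    + u6 S.w * (J + S.kk.val s r * (z - b) - (u6 S.c0 ^ 4 / 5 + 4 / (5 * u6 S.c0) * z))

lemma segL_affine (S : Seg) (s r : ℝ) (x1 I : ℤ) (J b θ φ x y : ℝ) (h : θ + φ = 1) :
    segL S s r x1 I J b (θ * x + φ * y) = θ * segL S s r x1 I J b x + φ * segL S s r x1 I J b y := by
  obtain rfl : φ = 1 - θ := by linarith
  simp only [segL, chd]; ring

/-- An interval on which the affine function is nonnegative at both ends. -/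
lemma seg_pos (h : S.ok E X x1 = true) (D : Dom s r g) {I : ℤ} (hI : 0 ≤ I) {J b lo c : ℝ}
    (hJ : J + S.kk.val s r * (c ^ 5 - b) ≤ gI s r g) (hIi : u6 I ≤ gI s r g)
    (hc1 : u6 x1 ≤ c) (hc2 : c ≤ u6 S.x2) (hic : gI s r g ≤ c ^ 4) (hlo : lo ≤ c ^ 5)
    (t1 : 0 ≤ segL S s r x1 I J b lo) (t2 : 0 ≤ segL S s r x1 I J b (u6 S.x2 ^ 5)) :
    0 ≤ lowF (lowI s r) (segV s r) (restR s r) c (gI s r g) (1 / c ^ 4) := by
  obtain ⟨hx0, h1, hlt, -, hk, hc0, hw, -, -, -⟩ := seg_consts h
  obtain ⟨-, hPl, hQ, -, -⟩ := pt_facts D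
  have hc : 0 ≤ c := by linarith
  have hL := affine_nonneg (segL_affine S s r x1 I J b) hlo (pow_le_pow_left₀ hc hc2 5) t1 t2
  have hb := lowF_chord (R := restR s r) hPl hQ h1 hc1 hc2 hlt (u6_pos hk) (u6_nonneg hI) hIi
  have hline := four_le_line hc (u6_pos hc0)
  have g1 := mul_le_mul_of_nonneg_left
    (mul_le_mul_of_nonneg_right (sub_le_sub_right hJ (u6 I)) hQ)
    (show 0 ≤ 7 / 10 * (1 / u6 S.x2 ^ 4) by positivity)
  have g2 := mul_nonpos_of_nonneg_of_nonpos hw (show J + S.kk.val s r * (c ^ 5 - b)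
    - (u6 S.c0 ^ 4 / 5 + 4 / (5 * u6 S.c0) * c ^ 5) ≤ 0 by linarith)
  simp only [segL] at hL
  linarith

/-- The intervals after one that ends at or before `v`. -/
lemma chain_sound (hE : E.ok X = true) (hX : X.Mem s r) (D : Dom s r g)
    (St : State E s r g il vl) {I It : ℤ} (hI : 0 ≤ I) (hIi : u6 I ≤ gI s r g) {nt : Mul1} {c : ℝ}
    (hv : gV s r g = c ^ 5) (hc : 1 ≤ c) (hic : gI s r g ≤ c ^ 4) :
    ∀ (l : List Seg) (p : Seg) (x0 : ℤ), p.ok E X x0 = true → chainOk E X I It nt p l = true →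
      u6 p.x2 ≤ c → 0 ≤ lowF (lowI s r) (segV s r) (restR s r) c (gI s r g) (1 / c ^ 4) := by
  have hb := envOk_box hE
  obtain ⟨-, hPl, hQ, -, -⟩ := pt_facts D
  intro l
  induction l with
  | nil =>
    intro p x0 hp hl hpc
    obtain ⟨hx0, h1, hlt, -, -, -, -, -, -, hh0⟩ := seg_consts hp
    simp only [chainOk, Bool.and_eq_true, Bool.or_eq_true, decide_eq_true_eq] at hl
    obtain ⟨⟨⟨⟨hIt0, hIt⟩, hr1⟩, hr2⟩, ht⟩ := hl
    have hx2 : 0 < p.x2 := by
      have := hp; simp only [Seg.ok, Bool.and_eq_true, decide_eq_true_eq] at this; omega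
    have hIti : u6 It ≤ gI s r g := by
      by_cases hg : g 0 ≤ u6 p.h
      · have hrel := seg_rel hp hE hX D St hg
        have h2 := nn_sound hX hb hr1
        simp only [val_sub, val_add, val_mul, val_par, val_powP5] at h2
        have hk := kk_nonneg (s := s) (r := r) hp
        have h3 : p.kk.val s r * (u6 p.x2 ^ 5 - E.vHi.val s r) ≤
            p.kk.val s r * (gV s r g - vl) := by
          refine mul_le_mul_of_nonneg_left ?_ hk
          have := pow_le_pow_left₀ (by linarith) hpc 5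
          linarith [St.vhi]
        linarith [St.ilo]
      · rcases hr2 with ht' | ⟨⟨he, hm⟩, hb2⟩
        · exfalso
          have : (2450000 : ℝ) ≤ p.h := by exact_mod_cast ht'
          have := D.head.le_top
          simp only [u6, not_le] at hg
          linarith
        · have h1 := St.top_i p.h nt (not_le.1 hg).le hh0.le he (nn_sound hX hb hm)
          have h2 := nn_sound hX hb hb2
          simp only [val_sub, val_par] at h2
          linarith
    have t := nn_sound hX hb ht
    rw [val_lowP hx2, val_invP4 hx2, val_par] at t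
    have hIt5 : u6 It ≤ 5 * u6 p.x2 ^ 3 := by
      have : (It : ℝ) * 10 ^ 12 ≤ 5 * (p.x2 : ℝ) ^ 3 := by exact_mod_cast hIt
      unfold u6; linear_combination this / 1000000000000000000
    exact (t.trans (lowF_mono hPl hQ (h1.trans hlt.le) hpc hIt5)).trans
      (lowF_le (by positivity) hQ hIti)
  | cons S l ih =>
    intro p x0 hp hl hpc
    simp only [chainOk, Bool.and_eq_true] at hl
    obtain ⟨⟨⟨hS, ht1⟩, ht2⟩, hl⟩ := hl
    obtain ⟨hx0, h1, hlt, hlt', hk, hc0, -, -, -, -⟩ := seg_consts hS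
    rcases le_or_gt (u6 S.x2) c with e | e
    · exact ih S p.x2 hS hl e
    have hvlt : gV s r g < u6 S.x2 ^ 5 := by
      rw [hv]; exact pow_lt_pow_left₀ e (by linarith) (by norm_num)
    have hrel := seg_rel hS hE hX D St (seg_small hS hE hX D St hvlt)
    have hk0 := kk_nonneg (s := s) (r := r) hS
    have hx2 : 0 < S.x2 := hx0.trans hlt'
    have hlt5 : u6 p.x2 ^ 5 < u6 S.x2 ^ 5 := pow_lt_pow_left₀ hlt (by linarith) (by norm_num)
    have t1 := nn_sound hX hb ht1
    have t2 := nn_sound hX hb ht2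
    simp only [Seg.inner, Seg.right, val_add, val_endP hx2 hx0 hk, val_endP hx2 hx2 hk,
      val_gain hx2, val_mul, val_par, val_gapP hc0, val_powP5, val_sub] at t1 t2
    refine seg_pos hS D hI (J := E.iLo.val s r) (b := E.vHi.val s r) (lo := u6 p.x2 ^ 5) ?_ hIi
      hpc e.le hic (pow_le_pow_left₀ (by linarith) hpc 5) ?_ ?_
    · have := mul_le_mul_of_nonneg_left (show c ^ 5 - E.vHi.val s r ≤ gV s r g - vl by
        rw [hv]; linarith [St.vhi]) hk0
      linarith [St.ilo]
    · simp only [segL, Five.Cert.chd_left hlt5]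
      linarith
    · simp only [segL, chd_right hlt5]
      linarith

/-- A checked leaf of the first derivative is sound. -/
theorem low_sound (he : EnvSound) : LowSound := by
  intro l X s r g hok hX D hcon
  obtain ⟨hP, hPl, hQ, hi1, hv1⟩ := pt_facts D
  have hd : derLow s r (gI s r g) (gV s r g) =
      dLow (15 * π / 64 * segI s r) (segV s r) (restR s r) (gI s r g) (gV s r g) := by
    simp only [derLow, dLow, restR]; ring
  rw [hd]
  refine le_trans ?_ (low_reduce hP hPl hQ hv1)
  obtain ⟨hc, hv, -, -⟩ := root_five hv1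
  set c := gV s r g ^ (1 / 5 : ℝ)
  rw [hv] at hcon
  have hic := i_le_four hi1 (by linarith) hcon
  cases l with
  | start x E =>
    cases E with
    | none =>
      simp only [LeafA.ok, Bool.and_eq_true, beq_iff_eq] at hok
      obtain ⟨⟨ho, hx⟩, ht⟩ := hok
      subst hx
      have t := nn_sound hX ho ht
      rw [val_lowP (by norm_num), val_invP4 (by norm_num), val_int] at t
      have e : u6 1000000 = 1 := by norm_num [u6]
      rw [e, Int.cast_one] at t
      exact (t.trans (lowF_mono hPl hQ le_rfl hc (by norm_num))).trans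
        (lowF_le (by positivity) hQ hi1)
    | some E =>
      simp only [LeafA.ok, Bool.and_eq_true, decide_eq_true_eq] at hok
      obtain ⟨⟨⟨⟨hE, hx⟩, h1⟩, h2⟩, ht⟩ := hok
      have hb := envOk_box hE
      have hx0 : 0 < x := by omega
      obtain ⟨il, vl, St⟩ := he E X s r g hE hX D
      have t := nn_sound hX hb ht
      rw [val_lowP hx0, val_invP4 hx0] at t
      have h1 := nn_sound hX hb h1
      have h2 := nn_sound hX hb h2
      simp only [val_sub, val_powP5, val_cq] at h1 h2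
      have hxc : u6 x ≤ c := le_of_pow_le_pow_left₀ (by norm_num) (by linarith)
        (show u6 x ^ 5 ≤ c ^ 5 by linarith [St.vlo, St.v_ge])
      have h3 : E.iLo.val s r ≤ 5 * u6 x ^ 3 := by
        refine (sub_nonneg.1 h2).trans_eq ?_
        rw [u6, div_pow]; push_cast; ring
      exact (t.trans (lowF_mono hPl hQ (u6_one_le hx) hxc h3)).trans
        (lowF_le (by positivity) hQ (St.ilo.trans St.i_ge))
  | lam E x1 I l It nt =>
    cases l with
    | nil => simp [LeafA.ok] at hok
    | cons S l =>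
      simp only [LeafA.ok, Bool.and_eq_true, decide_eq_true_eq] at hok
      obtain ⟨⟨⟨⟨⟨⟨⟨⟨hE, hS⟩, h1⟩, hI⟩, h2⟩, ht1⟩, ht2⟩, ht3⟩, hl⟩ := hok
      have hb := envOk_box hE
      obtain ⟨hx0, hx1, hlt, hlt', hk, hc0, -, -, -, -⟩ := seg_consts hS
      obtain ⟨il, vl, St⟩ := he E X s r g hE hX D
      have h1 := nn_sound hX hb h1
      have h2 := nn_sound hX hb h2
      simp only [val_sub, val_powP5, val_par] at h1 h2
      have hIi : u6 I ≤ gI s r g := by linarith [St.ilo, St.i_ge]
      rcases le_or_gt (u6 S.x2) c with e | e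
      · exact chain_sound hE hX D St hI hIi hv hc hic l S x1 hS hl e
      have hvlt : gV s r g < u6 S.x2 ^ 5 := by
        rw [hv]; exact pow_lt_pow_left₀ e (by linarith) (by norm_num)
      have hrel := seg_rel hS hE hX D St (seg_small hS hE hX D St hvlt)
      have hk0 := kk_nonneg (s := s) (r := r) hS
      have hx2 : 0 < S.x2 := hx0.trans hlt'
      have hxc : u6 x1 ≤ c := le_of_pow_le_pow_left₀ (by norm_num) (by linarith)
        (show u6 x1 ^ 5 ≤ c ^ 5 by linarith [St.vlo, St.v_ge])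
      have t1 := nn_sound hX hb ht1
      have t2 := nn_sound hX hb ht2
      have t3 := nn_sound hX hb ht3
      have hlt5 : u6 x1 ^ 5 < u6 S.x2 ^ 5 := pow_lt_pow_left₀ hlt (by linarith) (by norm_num)
      simp only [Seg.first, Seg.right, val_add, val_chd5 hx0.le hlt', val_lowP hx0, val_lowP hx2,
        val_endP hx2 hx2 hk, val_gain hx2, val_tanP hk, gain_const hx2, val_mul, val_par,
        val_gapP hc0, val_powP5, val_sub, (seg_vals s r).2.1] at t1 t2 t3
      refine seg_pos hS D hI (J := E.iLo.val s r) (b := vl) (lo := vl) ?_ hIi hxc e.le hic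
        (by linarith [St.v_ge]) ?_ ?_
      · have e2 : S.kk.val s r * (c ^ 5 - vl) ≤ gI s r g - il := by rw [← hv]; exact hrel
        linarith [St.ilo]
      · have hM := affine_nonneg
          (f := fun z => segL S s r x1 I (E.iLo.val s r) z z) (fun θ φ x y h => by
            obtain rfl : φ = 1 - θ := by linarith
            simp only [segL, chd]; ring) St.vlo St.vhi
          (by simp only [segL, sub_self, mul_zero, add_zero]; linarith)
          (by simp only [segL, sub_self, mul_zero, add_zero]; linarith)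
        exact hM
      · simp only [segL, chd_right hlt5]
        have g0 : S.kk.val s r * (u6 S.x2 ^ 5 - E.vHi.val s r) ≤
            S.kk.val s r * (u6 S.x2 ^ 5 - vl) :=
          mul_le_mul_of_nonneg_left (by linarith [St.vhi]) hk0
        have g1 := mul_le_mul_of_nonneg_left (mul_le_mul_of_nonneg_right g0 hQ)
          (show 0 ≤ 7 / 10 * (1 / u6 S.x2 ^ 4) by positivity)
        have g2 := mul_le_mul_of_nonneg_left g0 (seg_consts hS).2.2.2.2.2.2.1
        linarith

end Vale.Agent.P237.Six.Cert
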