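import Vale.Agent.P237.Six.CertSpec
import Vale.Agent.P237.Five.CertState

/-!
# P237, `n = 6`: the checks of an environment give the bounds for the state
-/

namespace Vale.Agent.P237.Six.Cert

open MeasureTheory Set Real intervalIntegral
open Five (footT endY)
open Five.Cert (QE Box nn par int Md Mul1 qP srP oneP yP s2 s3 s5 q2 q3 r2 r3 segVP lineVP capVP
  avg4P u6 avg4 circV nn_sound val_add val_sub val_mul val_par val_int val_yP val_oneP val_qP
  val_avg4P val_srP box_unit foot_mem endY_ge)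

/-- The same parameters as an environment of `n = 5`, for the shared lemmas on `√(1 - s²)`. -/
def Env.five (E : Env) : Five.Cert.Env :=
  ⟨E.md, E.al, E.be, E.nh, E.cap, E.m4, E.m5l, E.m5h, E.ym, E.L⟩

lemma bLo_le {E : Env} {X : Box} {s r : ℝ} (ho : X.ok = true) (hX : X.Mem s r)
    (hA : E.chordOk X.A = true) (hB : E.chordOk X.B = true) :
    E.bLo.val s r ≤ √(1 - s ^ 2) :=
  Five.Cert.bLo_le (E := E.five) ho hX hA hB

lemma le_bHi {E : Env} {s r : ℝ} (h : 0 < E.nh) (hs : s ^ 2 ≤ 1) :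
    √(1 - s ^ 2) ≤ E.bHi.val s r :=
  Five.Cert.le_bHi (E := E.five) h hs

lemma mLo_le {E : Env} {m : Mul1} {D : QE} {s r b : ℝ} (hm : 0 ≤ m.e)
    (hl : E.bLo.val s r ≤ b) (hh : b ≤ E.bHi.val s r) (ht : 0 ≤ (Env.mTest m D).val s r) :
    (E.mLo m D).val s r ≤ b * D.val s r :=
  Five.Cert.mLo_le (E := E.five) hm hl hh ht

lemma le_mHi {E : Env} {m : Mul1} {D : QE} {s r b : ℝ} (hm : 0 ≤ m.e)
    (hl : E.bLo.val s r ≤ b) (hh : b ≤ E.bHi.val s r) (ht : 0 ≤ (Env.mTest m D).val s r) :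
    b * D.val s r ≤ (E.mHi m D).val s r :=
  Five.Cert.le_mHi (E := E.five) hm hl hh ht

lemma val_serUP (s r : ℝ) (u : QE) : (serUP u).val s r = serU (u.val s r) := by
  simp only [serUP, serU, val_add, val_sub, val_mul, val_int, QE.val]
  push_cast
  ring

lemma val_serLP (s r : ℝ) (u : QE) : (serLP u).val s r = serL (u.val s r) := by
  simp only [serLP, serL, val_add, val_sub, val_mul, val_int, QE.val]
  push_cast
  ring

lemma val_circ4P (s r : ℝ) (u : QE) :
    (circ4P u).val s r = 1 - 2 / 3 * u.val s r + 1 / 5 * u.val s r ^ 2 := by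
  simp only [circ4P, val_add, val_sub, val_mul, val_int, QE.val]
  push_cast
  ring

lemma val_avg5P (s r : ℝ) (a : QE) : (avg5P a).val s r = avg5 (a.val s r) (endY s r) := by
  simp only [avg5P, avg5, val_yP, val_add, val_mul, QE.val]
  push_cast
  ring

lemma val_serCP (s r : ℝ) : serCP.val s r = serC s := by
  simp [serCP, s4, s5, s3, s2, serC]; ring

lemma val_lineQP (s r : ℝ) : lineQP.val s r = lineV s r := by
  simp [lineQP, lineV, qP, q2, q3, q4, s2, s3, s4, s5, r2, r3, r4]; ring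

lemma val_lineVP (s r : ℝ) : lineVP.val s r = lineI s r := by
  rw [lineI]; exact Five.Cert.val_lineVP s r

lemma val_capVP (s r : ℝ) :
    capVP.val s r = 1 - 2 * (1 - s ^ 2) / 3 + (1 - s ^ 2) ^ 2 / 5 := by
  simp [capVP, q2, qP]; ring

lemma lineV_nonneg {s r : ℝ} (hs : 0 ≤ s) (hs1 : s ≤ 1) (hr : 0 ≤ r) : 0 ≤ lineV s r := by
  have h : (0 : ℝ) ≤ 1 - s ^ 2 := by nlinarith
  unfold lineV; positivity

lemma capV_nonneg' {s : ℝ} : 0 ≤ capV s :=
  intervalIntegral.integral_nonneg (Real.sqrt_le_one.2 (by nlinarith [sq_nonneg s]))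
    fun x _ => by positivity

/-- The values of the integrals at the envelope in terms of `b = √(1 - s²)`. -/
structure EnvJ (E : Env) (s r : ℝ) (g : ℝ → ℝ) (J4 J5 : ℝ) : Prop where
  low : Low (∫ z in (0 : ℝ)..footT s r, g z ^ 4) (∫ z in (0 : ℝ)..footT s r, g z ^ 5) J4 J5
    (u6 E.ym) (u6 E.L) (g 0)
  nonneg : 0 ≤ J5
  j4 : J4 = √(1 - s ^ 2) * E.d4.val s r + E.c4.val s r
  lo : √(1 - s ^ 2) * (E.d5 serLP).val s r + (E.c5 serLP).val s r ≤ J5
  hi : J5 ≤ √(1 - s ^ 2) * (E.d5 serUP).val s r + (E.c5 serUP).val s r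

lemma envJ {E : Env} {X : Box} {s r : ℝ} {g : ℝ → ℝ} (ho : X.ok = true) (hX : X.Mem s r)
    (hD : Dom s r g) (hm : E.mdOk X = true) (hl : E.bLo.val s r ≤ √(1 - s ^ 2)) :
    ∃ J4 J5, EnvJ E s r g J4 J5 := by
  obtain ⟨a0, -, as, -⟩ := box_unit ho hX
  have hs := hD.s0.le
  obtain ⟨h0, htb, hb1⟩ := foot_mem hs hD.s1 hD.r0 hD.sr
  obtain ⟨hsy, hy0⟩ := endY_ge hs hD.s1 hD.r0
  have hq : 0 ≤ 1 - s ^ 2 := by nlinarith [hD.s1]
  have hone : 0 ≤ 1 - s * r := by linarith [hD.sr]
  have ht : footT s r = √(1 - s ^ 2) * (1 - s * r) := rfl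
  have ht2 : footT s r ^ 2 = (1 - s ^ 2) * ((1 - s * r) * (1 - s * r)) := by
    rw [ht, mul_pow, sq_sqrt hq]; ring
  obtain ⟨md, al, be, nh, cap, m4, m5l, m5h, ym, L⟩ := E
  simp only [Env.mdOk, Bool.and_eq_true, decide_eq_true_eq] at hm
  obtain ⟨hym, hm⟩ := hm
  have hy : (0 : ℝ) ≤ u6 ym := div_nonneg (by exact_mod_cast hym) (by norm_num)
  cases md with
  | circ =>
    simp only [Bool.and_eq_true, decide_eq_true_eq] at hm
    obtain ⟨h1, h2⟩ := hm
    rify at h1 h2
    have hys : u6 ym ≤ s := by simp only [u6]; linarith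
    have hL : (1 : ℝ) ≤ u6 L := by simp only [u6]; linarith
    refine ⟨circV (footT s r), circU (footT s r),
      (low_circ hs hD.s1 hD.r0 hD.sr hD.head hy hys).mono_L zero_le_one hL, circU_nonneg h0,
      ?_, ?_, ?_⟩
    · simp only [circV, Env.d4, Env.c4, val_int, val_mul, val_circ4P, val_oneP, val_qP]
      rw [show footT s r ^ 5 = footT s r * (footT s r ^ 2) ^ 2 by ring,
        show footT s r ^ 3 = footT s r * footT s r ^ 2 by ring, ht2, ht]
      push_cast
      ring
    · refine le_of_eq_of_le ?_ (circU_ge h0 (htb.trans hb1))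
      simp only [Env.d5, Env.c5, val_int, val_mul, val_serLP, val_oneP, val_qP, ht2]
      rw [ht]; push_cast; ring
    · refine (circU_le h0 (htb.trans hb1)).trans_eq ?_
      simp only [Env.d5, Env.c5, val_int, val_mul, val_serUP, val_oneP, val_qP, ht2]
      rw [ht]; push_cast; ring
  | flat =>
    simp only [Bool.and_eq_true] at hm
    have h1 := nn_sound hX ho hm.1
    have h2 := nn_sound hX ho hm.2
    simp only [val_sub, val_yP, val_par, sub_nonneg] at h1 h2
    refine ⟨_, _, low_flat hs hD.s1 hD.r0 hD.sr hD.head hy h1 h2,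
      mul_nonneg h0 (pow_nonneg hy0 5), ?_, le_of_eq ?_, le_of_eq ?_⟩ <;>
    · simp only [Env.d4, Env.c4, Env.d5, Env.c5, val_int, val_mul, val_oneP, val_yP]
      rw [ht]; push_cast; ring
  | chord =>
    simp only [Bool.and_eq_true, decide_eq_true_eq] at hm
    obtain ⟨⟨⟨h1, h2⟩, h3⟩, h4⟩ := hm
    have h3 := nn_sound hX ho h3
    have h4 := nn_sound hX ho h4
    simp only [val_sub, val_yP, val_par, sub_nonneg] at h3 h4
    rify at h1 h2
    have h1' : u6 ym ≤ 1 := by simp only [u6]; linarith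
    have h2' : 1 ≤ u6 L := by simp only [u6]; linarith
    refine ⟨(footT s r - 0) * avg4 1 (endY s r), (footT s r - 0) * avg5 1 (endY s r),
      low_seg hs hD.s1 hD.r0 hD.sr hD.head le_rfl h0 hD.head.one_le hy h1' h3 h2' h4,
      mul_nonneg (by linarith) (avg5_nonneg zero_le_one hy0), ?_, le_of_eq ?_, le_of_eq ?_⟩ <;>
    · simp only [Env.d4, Env.c4, Env.d5, Env.c5, val_int, val_mul, val_oneP, val_avg4P, val_avg5P,
        Int.cast_one, Int.cast_zero, sub_zero, add_zero]
      rw [ht]; ring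
  | node x z =>
    simp only [Bool.and_eq_true, decide_eq_true_eq] at hm
    obtain ⟨⟨⟨⟨⟨⟨⟨h1, h2⟩, h3⟩, h4⟩, h5⟩, h6⟩, h7⟩, h8⟩ := hm
    have h6 := nn_sound hX ho h6
    have h7 := nn_sound hX ho h7
    have h8 := nn_sound hX ho h8
    simp only [val_sub, val_mul, val_yP, val_oneP, val_par, sub_nonneg] at h6 h7 h8
    rify at h1 h2 h3 h4 h5
    have h1' : u6 ym ≤ u6 z := by simp only [u6]; linarith
    have h2' : 1 ≤ u6 L := by simp only [u6]; linarith
    have hx0 : 0 ≤ u6 x := by simp only [u6]; linarith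
    have hx1 : u6 x ≤ 1 := by simp only [u6]; linarith
    have hxz : u6 x ^ 2 + u6 z ^ 2 ≤ 1 := by
      simp only [u6, div_pow]; linarith
    have hxt : u6 x ≤ footT s r := h8.trans (mul_le_mul_of_nonneg_right hl hone)
    refine ⟨_, _, low_node hs hD.s1 hD.r0 hD.sr hD.head hx0 hxt (hy.trans h1') hxz hy h1' h6 h2' h7,
      add_nonneg (circU_nonneg hx0)
        (mul_nonneg (sub_nonneg.2 hxt) (avg5_nonneg (hy.trans h1') hy0)), ?_, ?_, ?_⟩
    · simp only [circV, Env.d4, Env.c4, val_mul, val_sub, val_circ4P, val_oneP, val_par, val_avg4P]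
      rw [ht]; ring
    · refine le_trans (le_of_eq ?_) (add_le_add (circU_ge hx0 hx1) le_rfl)
      simp only [Env.d5, Env.c5, val_mul, val_sub, val_serLP, val_oneP, val_par, val_avg5P]
      rw [ht]; ring
    · refine (add_le_add (circU_le hx0 hx1) le_rfl).trans (le_of_eq ?_)
      simp only [Env.d5, Env.c5, val_mul, val_sub, val_serUP, val_oneP, val_par, val_avg5P]
      rw [ht]; ring

/-- The scaling of `v` by rational bounds of `32/(5π)`. -/
lemma scale_bounds {lo M hi : ℝ} (h1 : lo ≤ M) (h2 : M ≤ hi) (h0 : 0 ≤ M) :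
    32000000 / 15707965 * lo ≤ 32 / (5 * π) * M ∧
      32 / (5 * π) * M ≤ 32000000 / 15707960 * hi := by
  constructor
  · refine (mul_le_mul_of_nonneg_left h1 (by norm_num)).trans
      (mul_le_mul_of_nonneg_right ?_ h0)
    rw [div_le_div_iff₀ (by norm_num) (by positivity)]
    linarith [Real.pi_lt_d6]
  · refine le_trans (mul_le_mul_of_nonneg_right ?_ h0) (mul_le_mul_of_nonneg_left h2 (by norm_num))
    rw [div_le_div_iff₀ (by positivity) (by norm_num)]
    linarith [Real.pi_gt_d6]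

/-- The cap from below. -/
lemma cap_low {E : Env} {s r : ℝ} (hs : 0 ≤ s) (hs1 : s ≤ 1) (f : QE) :
    √(1 - s ^ 2) * (E.capF f serUP).val s r + E.capLoP.val s r ≤
      √(1 - s ^ 2) * f.val s r + capV s := by
  rcases hT : E.cap with _ | T
  · have hb1 : √(1 - s ^ 2) ≤ 1 := sqrt_le_one.2 (by nlinarith)
    have hu := circU_le (sqrt_nonneg (1 - s ^ 2)) hb1
    rw [sq_sqrt (by nlinarith)] at hu
    simp only [Env.capF, Env.capLoP, hT, val_sub, val_serUP, val_qP, QE.val, capV_eq, capB]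
    push_cast
    linarith [Real.pi_gt_d6]
  · simp only [Env.capF, Env.capLoP, hT, val_serCP]
    linarith [capV_ge hs hs1]

/-- The cap from above. -/
lemma cap_high {E : Env} {X : Box} {s r : ℝ} (ho : X.ok = true) (hX : X.Mem s r)
    (hc : E.capOk X = true) (hs : 0 ≤ s) (hs1 : s ≤ 1) (f : QE) :
    √(1 - s ^ 2) * f.val s r + capV s ≤
      √(1 - s ^ 2) * (E.capF f serLP).val s r + E.capHiP.val s r := by
  rcases hT : E.cap with _ | T
  · have hb1 : √(1 - s ^ 2) ≤ 1 := sqrt_le_one.2 (by nlinarith)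
    have hu := circU_ge (sqrt_nonneg (1 - s ^ 2)) hb1
    rw [sq_sqrt (by nlinarith)] at hu
    simp only [Env.capF, Env.capHiP, hT, val_sub, val_serLP, val_qP, QE.val, capV_eq, capB]
    push_cast
    linarith [Real.pi_lt_d6]
  · simp only [Env.capOk, hT, Bool.and_eq_true, decide_eq_true_eq] at hc
    obtain ⟨hT0, hT1⟩ := hc
    rify at hT0 hT1
    obtain ⟨a0, -, as, sb⟩ := box_unit ho hX
    have hsB : s ^ 2 ≤ ((X.B : ℝ) / 16384) ^ 2 := pow_le_pow_left₀ hs (by linarith) 2
    have hT' : (1 : ℝ) ≤ u6 T * (1 - s ^ 2) := by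
      refine le_trans ?_ (mul_le_mul_of_nonneg_left (by linarith : 1 - ((X.B : ℝ) / 16384) ^ 2 ≤
        1 - s ^ 2) (by simp only [u6]; positivity))
      simp only [u6, div_pow]
      linarith
    simp only [Env.capF, Env.capHiP, hT, val_add, val_mul, val_par, val_serCP]
    simp only [s5, s3, s2, val_mul, QE.val]
    push_cast
    linarith [capV_le hs hs1 hT']

/-- The checks of an environment give the bounds for the state. -/
theorem env_sound : EnvSound := by
  intro E X s r g hE hX hD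
  simp only [Env.ok, Bool.and_eq_true, decide_eq_true_eq] at hE
  obtain ⟨⟨⟨⟨⟨⟨⟨⟨⟨⟨⟨ho, hnh⟩, hcA⟩, hcB⟩, hmd⟩, hcap⟩, he4⟩, he5l⟩, he5h⟩, ht4⟩, ht5l⟩, ht5h⟩ := hE
  have hs := hD.s0.le
  have hs2 : s ^ 2 ≤ 1 := by nlinarith [hD.s1]
  have hl := bLo_le ho hX hcA hcB
  have hh := le_bHi (E := E) (r := r) hnh hs2
  obtain ⟨J4, J5, hJ⟩ := envJ ho hX hD hmd hl
  have m4l := mLo_le he4 hl hh (nn_sound hX ho ht4)
  have m4h := le_mHi he4 hl hh (nn_sound hX ho ht4)
  have m5l := mLo_le he5l hl hh (nn_sound hX ho ht5l)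
  have m5h := le_mHi he5h hl hh (nn_sound hX ho ht5h)
  have c1 := cap_low (E := E) (r := r) hs hD.s1 (E.d5 serLP + srP * lineQP)
  have c2 := cap_high (E := E) ho hX hcap hs hD.s1 (E.d5 serUP + srP * lineQP)
  set b := √(1 - s ^ 2) with hb
  have hnn : ∀ j : ℝ, 0 ≤ j → 0 ≤ j + b * s * r * lineV s r + capV s := fun j hj => by
    have h1 := lineV_nonneg hs hD.s1 hD.r0
    have h2 := hD.r0
    have h3 : 0 ≤ b * s * r * lineV s r := by positivity
    linarith [capV_nonneg' (s := s)]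
  set M := J5 + b * s * r * lineV s r + capV s with hM
  have hM0 : 0 ≤ M := hnn _ hJ.nonneg
  simp only [val_add, val_mul, val_srP, val_lineQP] at c1 c2
  have hsum : (E.mLo E.m5l E.fVl).val s r + (E.c5 serLP).val s r + E.capLoP.val s r ≤ M ∧
      M ≤ (E.mHi E.m5h E.fVh).val s r + (E.c5 serUP).val s r + E.capHiP.val s r :=
    ⟨by simp only [Env.fVl] at m5l ⊢; linarith [hJ.lo],
      by simp only [Env.fVh] at m5h ⊢; linarith [hJ.hi]⟩
  have hI : 1 + 15 / 8 * (b * E.fI.val s r + E.c4.val s r) =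
      15 / 8 * (J4 + b * s * r * lineI s r + capI s) := by
    rw [hJ.j4, capI, Five.capV, ← hb]
    simp only [Env.fI, val_sub, val_add, val_mul, val_srP, val_lineVP, val_capVP]
    ring
  refine ⟨15 / 8 * (J4 + b * s * r * lineI s r + capI s), 32 / (5 * π) * M,
    ?_, ?_, ?_, ?_, ?_, ?_, ?_, fun h h1 h2 h3 => ?_, ?_, ?_⟩
  · rw [← hI]
    simp only [Env.iLo, val_mul, val_add, val_int, QE.val]
    push_cast
    linarith
  · rw [← hI]
    simp only [Env.iHi, val_mul, val_add, val_int, QE.val]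
    push_cast
    linarith
  · simp only [Env.vLo, val_mul, val_add, QE.val]
    push_cast
    exact (scale_bounds hsum.1 le_rfl hM0).1
  · simp only [Env.vHi, val_mul, val_add, QE.val]
    push_cast
    exact (scale_bounds le_rfl hsum.2 hM0).2
  · rw [gI, stateI, ← hb]
    linarith [hJ.low.le4]
  · rw [gV, stateV, ← hb, hM]
    have := hJ.low.le5
    gcongr
  · rw [gI, gV, stateI, stateV, ← hb, hM]
    have := mul_le_mul_of_nonneg_left hJ.low.rho
      (show (0 : ℝ) ≤ 32 / (5 * π) by positivity)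
    refine le_trans (le_of_eq ?_) (this.trans_eq (by ring))
    field_simp
    ring
  · rw [gI, gV, stateI, stateV, ← hb, hM]
    have := mul_le_mul_of_nonneg_left (hJ.low.sig h h1 h2 h3) (show (0 : ℝ) ≤ 15 / 8 by norm_num)
    refine le_trans (le_of_eq ?_) (this.trans_eq (by ring))
    field_simp
    ring
  · intro h m hg h0 he ht
    obtain ⟨j4, -⟩ := j_ge hs hD.s1 hD.r0 hD.sr hD.head h0 hg
    have hm := mLo_le he hl hh ht
    simp only [Env.hI, val_sub, val_add, val_mul, val_srP, val_oneP, val_avg4P, val_par, val_lineVP,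
      val_capVP] at hm
    simp only [Env.iTop, Env.hI, val_add, val_mul, val_int, QE.val]
    simp only [footT, ← hb] at j4
    rw [gI, stateI, capI, Five.capV, ← hb]
    simp only [footT, ← hb]
    push_cast
    linarith
  · intro h m hg h0 he ht
    obtain ⟨-, j5⟩ := j_ge hs hD.s1 hD.r0 hD.sr hD.head h0 hg
    have hm := mLo_le he hl hh ht
    have c := cap_low (E := E) (r := r) hs hD.s1 (oneP * avg5P (par h) + srP * lineQP)
    simp only [val_add, val_mul, val_srP, val_oneP, val_avg5P, val_par, val_lineQP, ← hb] at c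
    simp only [Env.vTop, val_add, val_mul, QE.val]
    simp only [footT, ← hb] at j5
    have hp : 0 ≤ (1 - s * r) := by linarith [hD.sr]
    have hj0 : (0 : ℝ) ≤ b * (1 - s * r) * avg5 (u6 h) (endY s r) :=
      mul_nonneg (mul_nonneg (sqrt_nonneg _) hp)
        (avg5_nonneg h0 (endY_ge hs hD.s1 hD.r0).2)
    rw [gV, stateV, ← hb]
    simp only [footT, ← hb]
    push_cast
    simp only [Env.hV] at hm ⊢
    exact (scale_bounds (by linarith) le_rfl (hnn _ (hj0.trans j5))).1

end Vale.Agent.P237.Six.Cert
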