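import Vale.Agent.P237.Six.Core
import Vale.Agent.P237.Six.CertState

/-!
# P237, `n = 6`: values of the expressions of the leaves
-/

namespace Vale.Agent.P237.Six.Cert

open Real
open Five (footT endY)
open Five.Cert (QE Box nn par int Md Mul1 qP srP oneP yP s2 s3 s5 q2 q3 r2 r3 segVP u6 chd val_add
  val_sub val_mul val_par val_int)

lemma val_cq (s r : ℝ) (n : ℤ) (d : ℕ) : (cq n d).val s r = (n : ℝ) / (d : ℝ) := by
  simp only [cq, QE.val]
  obtain ⟨a, ha⟩ := Int.natCast_dvd.2 (Nat.gcd_dvd_left n.natAbs d)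
  obtain ⟨b, hb⟩ := Nat.gcd_dvd_right n.natAbs d
  rcases Nat.eq_zero_or_pos (Nat.gcd n.natAbs d) with h0 | h0
  · obtain ⟨h1, h2⟩ := Nat.gcd_eq_zero_iff.1 h0
    simp [h2]
  set g := Nat.gcd n.natAbs d
  rw [ha, hb, Nat.mul_div_cancel_left b h0, Int.mul_ediv_cancel_left a (by exact_mod_cast h0.ne')]
  push_cast
  rw [mul_div_mul_left _ _ (by exact_mod_cast h0.ne')]

/-- The part of both derivatives without the state. -/
noncomputable def restR (s r : ℝ) : ℝ := 199 / 125 * segW s r - 8 * segT s r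

/-- The lower bound for `15 π / 64 * segI`. -/
noncomputable def lowI (s r : ℝ) : ℝ := 73631 / 100000 * segI s r

lemma seg_vals (s r : ℝ) :
    pLo.val s r = lowI s r ∧ segQP.val s r = segV s r ∧ restP.val s r = restR s r := by
  refine ⟨?_, ?_, ?_⟩
  · simp [pLo, segIP, lowI, segI, segVP, Five.segV, qP, s2, s3, q2, q3, r2, r3]; ring
  · simp [segQP, mom4P, segV, qP, s2, s3, s4, q2, q3, q4, r2, r3, r4]; ring
  · simp [restP, restR, segWP, segW, segTP, segT, segQP, mom4P, segV, srP, qP, s2, s3, s4, s5, q2,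
      q3, q4, r2, r3, r4]
    ring

lemma pt_facts {s r : ℝ} {g : ℝ → ℝ} (D : Dom s r g) :
    lowI s r ≤ 15 * π / 64 * segI s r ∧ 0 ≤ lowI s r ∧ 0 ≤ segV s r ∧ 1 ≤ gI s r g ∧
      1 ≤ gV s r g := by
  obtain ⟨hs0, hs1, hr, hsr, hy, hH⟩ := D
  obtain ⟨hi1, hv1⟩ := state_bounds hs0.le hs1 hr hsr hH hs0
  have hq : 0 ≤ 1 - s ^ 2 := by nlinarith
  have hsI : 0 ≤ segI s r := by unfold segI Five.segV; positivity
  refine ⟨mul_le_mul_of_nonneg_right (by linarith [pi_gt_d6]) hsI,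
    mul_nonneg (by norm_num) hsI, by unfold segV; positivity, hi1, hv1⟩

lemma u6_pos {x : ℤ} (h : 0 < x) : 0 < u6 x := by
  have : (0 : ℝ) < x := by exact_mod_cast h
  unfold u6; positivity

lemma u6_nonneg {x : ℤ} (h : 0 ≤ x) : 0 ≤ u6 x := by
  have : (0 : ℝ) ≤ x := by exact_mod_cast h
  unfold u6; positivity

lemma u6_one_le {x : ℤ} (h : 1000000 ≤ x) : 1 ≤ u6 x := by
  have : (1000000 : ℝ) ≤ x := by exact_mod_cast h
  unfold u6; linarith

lemma toNat_cast {n : ℤ} (h : 0 ≤ n) : ((n.toNat : ℕ) : ℝ) = (n : ℝ) := by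
  exact_mod_cast Int.toNat_of_nonneg h

lemma val_powP5 (s r : ℝ) (x : ℤ) : (powP5 x).val s r = u6 x ^ 5 := by
  rw [powP5, val_cq, u6, div_pow]; norm_num

lemma val_powP4 (s r : ℝ) (x : ℤ) : (powP4 x).val s r = u6 x ^ 4 := by
  rw [powP4, val_cq, u6, div_pow]; norm_num

lemma val_invP4 {x : ℤ} (h : 0 < x) (s r : ℝ) : (invP4 x).val s r = 1 / u6 x ^ 4 := by
  have hx : (0 : ℝ) < x := by exact_mod_cast h
  rw [invP4, val_cq, toNat_cast (by positivity), u6, div_pow]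
  push_cast
  field_simp
  norm_num

lemma val_tanP {k : ℤ} (h : 0 < k) (s r : ℝ) (x : ℤ) :
    (tanP k x).val s r = tanF (u6 k) (u6 x) := by
  have hk : (0 : ℝ) < k := by exact_mod_cast h
  rw [tanP, val_cq, toNat_cast (by positivity), tanF, u6, u6]
  push_cast
  field_simp
  ring

lemma val_chd5 {x1 x2 : ℤ} (h0 : 0 ≤ x1) (h : x1 < x2) (s r : ℝ) (a c z : QE) :
    (chd5 x1 x2 a c z).val s r =
      chd (u6 x1 ^ 5) (u6 x2 ^ 5) (a.val s r) (c.val s r) (z.val s r) := by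
  have hp : x1 ^ 5 < x2 ^ 5 := pow_lt_pow_left₀ h h0 (by norm_num)
  have hne : (x2 : ℝ) ^ 5 - (x1 : ℝ) ^ 5 ≠ 0 := by
    have : (x1 : ℝ) ^ 5 < (x2 : ℝ) ^ 5 := by exact_mod_cast hp
    exact (sub_pos.2 this).ne'
  simp only [chd5, val_mul, val_add, val_sub, val_cq, val_powP5, chd,
    toNat_cast (sub_nonneg.2 hp.le)]
  simp only [u6]
  push_cast
  field_simp
  ring

lemma val_chd4 {x1 x2 : ℤ} (h0 : 0 ≤ x1) (h : x1 < x2) (s r : ℝ) (a c z : QE) :
    (chd4 x1 x2 a c z).val s r =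
      chd (u6 x1 ^ 4) (u6 x2 ^ 4) (a.val s r) (c.val s r) (z.val s r) := by
  have hp : x1 ^ 4 < x2 ^ 4 := pow_lt_pow_left₀ h h0 (by norm_num)
  have hne : (x2 : ℝ) ^ 4 - (x1 : ℝ) ^ 4 ≠ 0 := by
    have : (x1 : ℝ) ^ 4 < (x2 : ℝ) ^ 4 := by exact_mod_cast hp
    exact (sub_pos.2 this).ne'
  simp only [chd4, val_mul, val_add, val_sub, val_cq, val_powP4, chd,
    toNat_cast (sub_nonneg.2 hp.le)]
  simp only [u6]
  push_cast
  field_simp
  ring

lemma val_gapP {c : ℤ} (h : 0 < c) (s r : ℝ) (z i : QE) :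
    (gapP c z i).val s r = i.val s r - (u6 c ^ 4 / 5 + 4 / (5 * u6 c) * z.val s r) := by
  have hc : (0 : ℝ) < c := by exact_mod_cast h
  simp only [gapP, val_sub, val_mul, val_cq, toNat_cast (show (0 : ℤ) ≤ 5 * c by omega), u6]
  push_cast
  field_simp
  ring

lemma val_lowP {x : ℤ} (h : 0 < x) (s r : ℝ) (i t : QE) :
    (lowP x i t).val s r =
      lowF (lowI s r) (segV s r) (restR s r) (u6 x) (i.val s r) (t.val s r) := by
  have hx : (0 : ℝ) < x := by exact_mod_cast h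
  obtain ⟨e1, e2, e3⟩ := seg_vals s r
  simp only [lowP, val_add, val_sub, val_mul, val_cq, val_par, e1, e2, e3, QE.val,
    toNat_cast (show (0 : ℤ) ≤ 125 * x by omega), lowF, u6]
  push_cast
  field_simp
  ring

lemma val_highP (s r : ℝ) (x : ℤ) :
    (highP x).val s r = highF (lowI s r) (segV s r) (restR s r) (u6 x) := by
  obtain ⟨e1, e2, e3⟩ := seg_vals s r
  simp only [highP, sqC, linP, conP, val_add, val_sub, val_mul, val_par, val_int, e1, e2, e3,
    QE.val, highF]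
  push_cast
  ring

lemma val_slopeP (s r : ℝ) (x : ℤ) : (slopeP x).val s r =
    2 * (4801 / 120) * u6 x * lowI s r - (35 / 2 * lowI s r + 32 * segV s r) := by
  obtain ⟨e1, e2, -⟩ := seg_vals s r
  simp only [slopeP, sqC, linP, val_add, val_sub, val_mul, val_par, val_int, e1, e2, QE.val]
  push_cast
  ring

lemma val_highS {x1 x2 m : ℤ} (h0 : 0 ≤ x1) (h : x1 < x2) (hm : 0 < m) (s r : ℝ) (z : QE) :
    (highS x1 x2 m z).val s r =
      4801 / 120 * (chd (u6 x1 ^ 4) (u6 x2 ^ 4) (u6 x1 * u6 x1) (u6 x2 * u6 x2) (z.val s r)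
          * lowI s r)
        - (3 * u6 m / 4 + 1 / (4 * u6 m ^ 3) * z.val s r) * (35 / 2 * lowI s r + 32 * segV s r)
        + (14 * segV s r + restR s r) := by
  have hm' : (0 : ℝ) < m := by exact_mod_cast hm
  obtain ⟨e1, e2, e3⟩ := seg_vals s r
  simp only [highS, sqC, linP, conP, val_add, val_sub, val_mul, val_par, val_int, val_cq,
    val_chd4 h0 h, e1, e2, e3, QE.val, toNat_cast (show (0 : ℤ) ≤ 4 * m ^ 3 by positivity), u6]
  push_cast
  field_simp
  ring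

end Vale.Agent.P237.Six.Cert
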