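import Vale.Agent.P237.Five.Core
import Vale.Agent.P237.Six.Key

/-!
# P237, `n = 6`: the leaf inequalities in the variables `c = v^(1/5)` and `a = i^(1/4)`

Both derivatives are bounded below by rational functions of the roots; on an interval the bound is
affine in `v`, respectively `i`, by convexity of the powers.
-/

namespace Vale.Agent.P237.Six.Cert

open Real Set
open Five.Cert (chd chd_eq weights)

/-- `derLow` with the segment integrals as variables. -/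
noncomputable def dLow (P Q R i v : ℝ) : ℝ :=
  (921 / 50 + 7 / 2 * v ^ (1 / 5 : ℝ)) * P
    + (-(7 / 2) - 1842 / 125 * v ^ (-(1 / 5) : ℝ) + 7 / 10 * i * v ^ (-(4 / 5) : ℝ)
        + 1 / 150 * v ^ (1 / 3 : ℝ)) * Q + R

/-- The lower bound for `dLow` at `c = x`, with `t` in place of `c⁻⁴`. -/
noncomputable def lowF (P Q R x i t : ℝ) : ℝ :=
  (921 / 50 + 7 / 2 * x) * P
    + ((1 / 90 * x - 1577 / 450 - 1842 / 125 / x) * Q + 7 / 10 * t * (i * Q)) + R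

/-- `derHigh` with the segment integrals as variables. -/
noncomputable def dHigh (P Q R i v : ℝ) : ℝ :=
  (48 * i ^ (1 / 2 : ℝ) - 35 / 2 * i ^ (1 / 4 : ℝ) - 8 * v * i ^ (-(3 / 4) : ℝ)
      + 1 / 120 * i ^ (2 / 3 : ℝ)) * P + (14 - 32 * i ^ (1 / 4 : ℝ)) * Q + R

/-- The lower bound for `dHigh` at `a`. -/
noncomputable def highF (P Q R a : ℝ) : ℝ :=
  4801 / 120 * (a * a) * P - a * (35 / 2 * P + 32 * Q) + (14 * Q + R)

variable {P Pl Q R i v : ℝ}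

lemma root_five (hv : 1 ≤ v) : 1 ≤ v ^ (1 / 5 : ℝ) ∧ v = (v ^ (1 / 5 : ℝ)) ^ 5 ∧
    v ^ (-(1 / 5) : ℝ) = 1 / v ^ (1 / 5 : ℝ) ∧ v ^ (-(4 / 5) : ℝ) = 1 / (v ^ (1 / 5 : ℝ)) ^ 4 := by
  have hv0 : 0 ≤ v := by linarith
  refine ⟨Real.one_le_rpow hv (by norm_num), ?_, ?_, ?_⟩
  · rw [← rpow_natCast, ← rpow_mul hv0]; norm_num
  · rw [rpow_neg hv0, one_div (v ^ (1 / 5 : ℝ))]
  · rw [rpow_neg hv0, one_div ((v ^ (1 / 5 : ℝ)) ^ 4), ← rpow_natCast, ← rpow_mul hv0]; norm_num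

lemma root_four (hi : 1 ≤ i) : 1 ≤ i ^ (1 / 4 : ℝ) ∧ i = (i ^ (1 / 4 : ℝ)) ^ 4 ∧
    i ^ (5 / 4 : ℝ) = (i ^ (1 / 4 : ℝ)) ^ 5 := by
  have hi0 : 0 ≤ i := by linarith
  refine ⟨Real.one_le_rpow hi (by norm_num), ?_, ?_⟩ <;>
  · rw [← rpow_natCast, ← rpow_mul hi0]; norm_num

/-- On the side of the first derivative `i ≤ c⁴`. -/
lemma i_le_four {c : ℝ} (hi : 1 ≤ i) (hc : 0 ≤ c) (h : i ^ (5 / 4 : ℝ) ≤ c ^ 5) : i ≤ c ^ 4 := by
  obtain ⟨ha, e4, e5⟩ := root_four hi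
  rw [e5] at h
  rw [e4]
  exact pow_le_pow_left₀ (by linarith) (le_of_pow_le_pow_left₀ (by norm_num) hc h) 4

lemma third_ge {v : ℝ} (hv : 1 ≤ v) : 5 / 3 * v ^ (1 / 5 : ℝ) - 2 / 3 ≤ v ^ (1 / 3 : ℝ) := by
  have hv0 : 0 ≤ v := by linarith
  set q := v ^ (1 / 15 : ℝ) with hq
  have e3 : v ^ (1 / 5 : ℝ) = q ^ 3 := by rw [hq, ← rpow_natCast, ← rpow_mul hv0]; norm_num
  have e5 : v ^ (1 / 3 : ℝ) = q ^ 5 := by rw [hq, ← rpow_natCast, ← rpow_mul hv0]; norm_num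
  have hq0 : 0 ≤ q := rpow_nonneg hv0 _
  rw [e3, e5]
  nlinarith [mul_nonneg (sq_nonneg (q - 1))
    (show 0 ≤ 3 * q ^ 3 + 6 * q ^ 2 + 4 * q + 2 by positivity)]

/-- `dLow` is at least `lowF` at the root. -/
lemma low_reduce (hP : Pl ≤ P) (hPl : 0 ≤ Pl) (hQ : 0 ≤ Q) (hv : 1 ≤ v) :
    lowF Pl Q R (v ^ (1 / 5 : ℝ)) i (1 / (v ^ (1 / 5 : ℝ)) ^ 4) ≤ dLow P Q R i v := by
  obtain ⟨hc, -, e1, e4⟩ := root_five hv
  have h3 := third_ge hv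
  set c := v ^ (1 / 5 : ℝ)
  have d1 : (921 / 50 + 7 / 2 * c) * Pl ≤ (921 / 50 + 7 / 2 * c) * P :=
    mul_le_mul_of_nonneg_left hP (by linarith)
  have d2 := mul_le_mul_of_nonneg_right
    (show 1 / 90 * c - 1 / 225 ≤ 1 / 150 * v ^ (1 / 3 : ℝ) by linarith) hQ
  unfold lowF dLow
  rw [e1, e4, show 1842 / 125 / c = 1842 / 125 * (1 / c) by ring]
  linarith

/-- `lowF` is nondecreasing in `i`. -/
lemma lowF_le {x j t : ℝ} (ht : 0 ≤ t) (hQ : 0 ≤ Q) (hji : j ≤ i) :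
    lowF P Q R x j t ≤ lowF P Q R x i t := by
  unfold lowF
  nlinarith [mul_le_mul_of_nonneg_left (mul_le_mul_of_nonneg_right hji hQ)
    (show 0 ≤ 7 / 10 * t by positivity)]

/-- At fixed `i ≤ 5 x³` the bound is nondecreasing to the right of `x`. -/
lemma lowF_mono {x c : ℝ} (hPl : 0 ≤ Pl) (hQ : 0 ≤ Q) (hx : 1 ≤ x) (hxc : x ≤ c)
    (hi : i ≤ 5 * x ^ 3) : lowF Pl Q R x i (1 / x ^ 4) ≤ lowF Pl Q R c i (1 / c ^ 4) := by
  have hx0 : 0 < x := by linarith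
  have hc0 : 0 < c := by linarith
  set S := (c + x) * (c ^ 2 + x ^ 2) with hS
  have hS0 : 0 ≤ S := by positivity
  have h4 : S ≤ 4 * c ^ 3 := by
    have : x ^ 2 ≤ c ^ 2 := pow_le_pow_left₀ hx0.le hxc 2
    calc S ≤ (c + c) * (c ^ 2 + c ^ 2) := by rw [hS]; gcongr
      _ = 4 * c ^ 3 := by ring
  have key : 0 ≤ 1842 / 125 * (c ^ 3 * x ^ 3) - 7 / 10 * i * S := by
    have := mul_le_mul_of_nonneg_right hi hS0
    have := mul_le_mul_of_nonneg_left h4 (show 0 ≤ 5 * x ^ 3 by positivity)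
    have : 0 ≤ c ^ 3 * x ^ 3 := by positivity
    nlinarith
  have e : lowF Pl Q R c i (1 / c ^ 4) - lowF Pl Q R x i (1 / x ^ 4) =
      (c - x) * (7 / 2 * Pl + Q / 90
        + Q * ((1842 / 125 * (c ^ 3 * x ^ 3) - 7 / 10 * i * S) / (c ^ 4 * x ^ 4))) := by
    rw [hS]; unfold lowF; field_simp; ring
  have : 0 ≤ (c - x) * (7 / 2 * Pl + Q / 90
      + Q * ((1842 / 125 * (c ^ 3 * x ^ 3) - 7 / 10 * i * S) / (c ^ 4 * x ^ 4))) :=
    mul_nonneg (by linarith) (by positivity)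
  linarith

/-- The tangent of `c⁻⁴` as a function of `v = c⁵`, at `k⁵`. -/
noncomputable def tanF (k x : ℝ) : ℝ := (9 * k ^ 5 - 4 * x ^ 5) / (5 * k ^ 9)

lemma tanF_le {k c : ℝ} (hk : 0 < k) (hc : 0 < c) : tanF k c ≤ 1 / c ^ 4 := by
  rw [tanF, div_le_div_iff₀ (by positivity) (by positivity)]
  nlinarith [mul_nonneg (sq_nonneg (c - k)) (show 0 ≤ 4 * c ^ 7 + 8 * c ^ 6 * k
    + 12 * c ^ 5 * k ^ 2 + 16 * c ^ 4 * k ^ 3 + 20 * c ^ 3 * k ^ 4 + 15 * c ^ 2 * k ^ 5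
    + 10 * c * k ^ 6 + 5 * k ^ 7 by positivity)]

/-- `c⁴` below the tangent at `c₀⁵`, as a function of `c⁵`. -/
lemma four_le_line {c c0 : ℝ} (hc : 0 ≤ c) (h0 : 0 < c0) :
    c ^ 4 ≤ c0 ^ 4 / 5 + 4 / (5 * c0) * c ^ 5 := by
  rw [show c0 ^ 4 / 5 + 4 / (5 * c0) * c ^ 5 = (c0 ^ 5 + 4 * c ^ 5) / (5 * c0) by field_simp,
    le_div_iff₀ (by positivity)]
  nlinarith [mul_nonneg (sq_nonneg (c - c0))
    (show 0 ≤ 4 * c ^ 3 + 3 * c ^ 2 * c0 + 2 * c * c0 ^ 2 + c0 ^ 3 by positivity)]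

/-- On an interval the bound is affine in `v`. -/
lemma lowF_chord {x1 x2 c k I : ℝ} (hPl : 0 ≤ Pl) (hQ : 0 ≤ Q) (h1 : 1 ≤ x1) (hc1 : x1 ≤ c)
    (hc2 : c ≤ x2) (hlt : x1 < x2) (hk : 0 < k) (hI : 0 ≤ I) (hIi : I ≤ i) :
    chd (x1 ^ 5) (x2 ^ 5) (lowF Pl Q R x1 I (tanF k x1)) (lowF Pl Q R x2 I (tanF k x2)) (c ^ 5)
        + 7 / 10 * (1 / x2 ^ 4) * ((i - I) * Q) ≤ lowF Pl Q R c i (1 / c ^ 4) := by
  have hx1 : 0 < x1 := by linarith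
  have hx2 : 0 < x2 := by linarith
  have hc : 0 < c := by linarith
  obtain ⟨w1, w2, w3, w4⟩ := weights (pow_le_pow_left₀ hx1.le hc1 5)
    (pow_le_pow_left₀ hc.le hc2 5) (pow_lt_pow_left₀ hlt hx1.le (by norm_num))
  rw [chd_eq]
  set θ := (x2 ^ 5 - c ^ 5) / (x2 ^ 5 - x1 ^ 5)
  set φ := (c ^ 5 - x1 ^ 5) / (x2 ^ 5 - x1 ^ 5)
  set d := θ * x1 + φ * x2 with hd
  have hd5 : d ^ 5 ≤ c ^ 5 := by
    have := (convexOn_pow 5).2 (mem_Ici.2 hx1.le) (mem_Ici.2 hx2.le) w1 w2 w3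
    simp only [smul_eq_mul] at this
    rw [w4] at this
    exact this
  have hdc : d ≤ c := le_of_pow_le_pow_left₀ (by norm_num) hc.le hd5
  have hd0 : 0 < d := by
    have : θ * x1 + φ * x1 ≤ d := by
      rw [hd]; linarith [mul_le_mul_of_nonneg_left hlt.le w2]
    rw [← add_mul, w3, one_mul] at this
    linarith
  have hinv : 1 / c ≤ θ / x1 + φ / x2 := by
    refine (one_div_le_one_div_of_le hd0 hdc).trans ?_
    rw [div_le_iff₀ hd0]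
    have e : (θ / x1 + φ / x2) * d = (θ + φ) ^ 2 + θ * φ * ((x2 - x1) ^ 2 / (x1 * x2)) := by
      rw [hd]; field_simp; ring
    rw [e, w3]
    have : 0 ≤ θ * φ * ((x2 - x1) ^ 2 / (x1 * x2)) := by positivity
    linarith
  have ht : θ * tanF k x1 + φ * tanF k x2 ≤ 1 / c ^ 4 := by
    refine le_trans (le_of_eq ?_) (tanF_le hk hc)
    simp only [tanF]
    field_simp
    linear_combination (9 * k ^ 5) * w3 - 4 * w4
  have d1 : (921 / 50 + 7 / 2 * d) * Pl ≤ (921 / 50 + 7 / 2 * c) * Pl :=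
    mul_le_mul_of_nonneg_right (by linarith) hPl
  have d2 := mul_le_mul_of_nonneg_right
    (show 1 / 90 * d - 1577 / 450 - 1842 / 125 * (θ / x1 + φ / x2) ≤
      1 / 90 * c - 1577 / 450 - 1842 / 125 / c by
      rw [show 1842 / 125 / c = 1842 / 125 * (1 / c) by ring]; linarith) hQ
  have d3 : 7 / 10 * ((θ * tanF k x1 + φ * tanF k x2) * (I * Q)) ≤
      7 / 10 * (1 / c ^ 4 * (I * Q)) := by
    have := mul_le_mul_of_nonneg_right ht (mul_nonneg hI hQ); linarith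
  have d4 : 7 / 10 * (1 / x2 ^ 4) * ((i - I) * Q) ≤ 7 / 10 * (1 / c ^ 4) * ((i - I) * Q) := by
    have h24 : 1 / x2 ^ 4 ≤ 1 / c ^ 4 :=
      one_div_le_one_div_of_le (by positivity) (pow_le_pow_left₀ hc.le hc2 4)
    exact mul_le_mul_of_nonneg_right (by linarith) (mul_nonneg (by linarith) hQ)
  have e : θ * lowF Pl Q R x1 I (tanF k x1) + φ * lowF Pl Q R x2 I (tanF k x2) =
      (921 / 50 + 7 / 2 * d) * Pl
        + (1 / 90 * d - 1577 / 450 - 1842 / 125 * (θ / x1 + φ / x2)) * Q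
        + 7 / 10 * ((θ * tanF k x1 + φ * tanF k x2) * (I * Q)) + R := by
    simp only [lowF, hd]
    linear_combination (921 / 50 * Pl - 1577 / 450 * Q + R) * w3
  rw [e]
  unfold lowF
  nlinarith

/-- `dHigh` is at least `highF` at the root, if `v ≤ a⁵`. -/
lemma high_reduce (hP : Pl ≤ P) (hPl : 0 ≤ Pl) (hi : 1 ≤ i) (hV : v ≤ i ^ (5 / 4 : ℝ)) :
    highF Pl Q R (i ^ (1 / 4 : ℝ)) ≤ dHigh P Q R i v := by
  obtain ⟨ha, -, e5⟩ := root_four hi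
  have hi0 : 0 ≤ i := by linarith
  set a := i ^ (1 / 4 : ℝ) with hadef
  have e2 : i ^ (1 / 2 : ℝ) = a * a := by
    rw [hadef, ← rpow_add (by linarith)]; norm_num
  have e3 : i ^ (-(3 / 4) : ℝ) = 1 / a ^ 3 := by
    rw [rpow_neg hi0, one_div (a ^ 3), hadef, ← rpow_natCast, ← rpow_mul hi0]; norm_num
  have h23 : a * a ≤ i ^ (2 / 3 : ℝ) := by
    rw [← e2]; exact rpow_le_rpow_of_exponent_le hi (by norm_num)
  have ha0 : 0 < a := by linarith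
  have hv' : v * (1 / a ^ 3) ≤ a * a := by
    rw [e5] at hV
    rw [mul_one_div, div_le_iff₀ (by positivity)]
    linarith [show a * a * a ^ 3 = a ^ 5 by ring]
  have hC : 4801 / 120 * (a * a) - 35 / 2 * a ≤
      48 * (a * a) - 35 / 2 * a - 8 * v * (1 / a ^ 3) + 1 / 120 * i ^ (2 / 3 : ℝ) := by nlinarith
  have hC0 : 0 ≤ 4801 / 120 * (a * a) - 35 / 2 * a := by nlinarith
  have := mul_le_mul hC hP hPl (hC0.trans hC)
  unfold highF dHigh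
  rw [e2, e3]
  linarith

/-- The tail test. -/
lemma high_tail {x a : ℝ} (hPl : 0 ≤ Pl) (hxa : x ≤ a) (t : 0 ≤ highF Pl Q R x)
    (t' : 0 ≤ 2 * (4801 / 120) * x * Pl - (35 / 2 * Pl + 32 * Q)) : 0 ≤ highF Pl Q R a := by
  have : highF Pl Q R a = highF Pl Q R x
      + (a - x) * (2 * (4801 / 120) * x * Pl - (35 / 2 * Pl + 32 * Q))
      + 4801 / 120 * Pl * (a - x) ^ 2 := by unfold highF; ring
  have := mul_nonneg (sub_nonneg.2 hxa) t'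
  have : 0 ≤ 4801 / 120 * Pl * (a - x) ^ 2 := by positivity
  linarith

/-- On an interval the bound is affine in `i`. -/
lemma high_chord {x1 x2 a m : ℝ} (hPl : 0 ≤ Pl) (hQ : 0 ≤ Q) (h1 : 0 < x1) (ha1 : x1 ≤ a)
    (ha2 : a ≤ x2) (hlt : x1 < x2) (hm : 0 < m) :
    4801 / 120 * (chd (x1 ^ 4) (x2 ^ 4) (x1 * x1) (x2 * x2) (a ^ 4) * Pl)
        - (3 * m / 4 + 1 / (4 * m ^ 3) * a ^ 4) * (35 / 2 * Pl + 32 * Q) + (14 * Q + R) ≤
      highF Pl Q R a ∧ a ^ 5 ≤ chd (x1 ^ 4) (x2 ^ 4) (x1 ^ 5) (x2 ^ 5) (a ^ 4) := by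
  have hx2 : 0 < x2 := by linarith
  have ha : 0 < a := by linarith
  obtain ⟨w1, w2, w3, w4⟩ := weights (pow_le_pow_left₀ h1.le ha1 4)
    (pow_le_pow_left₀ ha.le ha2 4) (pow_lt_pow_left₀ hlt h1.le (by norm_num))
  rw [chd_eq, chd_eq]
  set θ := (x2 ^ 4 - a ^ 4) / (x2 ^ 4 - x1 ^ 4)
  set φ := (a ^ 4 - x1 ^ 4) / (x2 ^ 4 - x1 ^ 4)
  refine ⟨?_, ?_⟩
  · have hd : θ * (x1 * x1) + φ * (x2 * x2) ≤ a * a := by
      refine le_of_pow_le_pow_left₀ two_ne_zero (by positivity) ?_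
      have := (convexOn_pow 2).2 (mem_Ici.2 (mul_nonneg h1.le h1.le))
        (mem_Ici.2 (mul_nonneg hx2.le hx2.le)) w1 w2 w3
      simp only [smul_eq_mul] at this
      refine this.trans_eq ?_
      linear_combination w4
    have hl : a ≤ 3 * m / 4 + 1 / (4 * m ^ 3) * a ^ 4 := by
      rw [show 3 * m / 4 + 1 / (4 * m ^ 3) * a ^ 4 = (3 * m ^ 4 + a ^ 4) / (4 * m ^ 3) by
        field_simp, le_div_iff₀ (by positivity)]
      nlinarith [mul_nonneg (sq_nonneg (a - m))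
        (show 0 ≤ a ^ 2 + 2 * a * m + 3 * m ^ 2 by positivity)]
    unfold highF
    have := mul_le_mul_of_nonneg_right hd hPl
    have := mul_le_mul_of_nonneg_right hl (show 0 ≤ 35 / 2 * Pl + 32 * Q by positivity)
    linarith
  · have := (convexOn_rpow (p := (5 / 4 : ℝ)) (by norm_num)).2 (mem_Ici.2 (pow_nonneg h1.le 4))
      (mem_Ici.2 (pow_nonneg hx2.le 4)) w1 w2 w3
    simp only [smul_eq_mul] at this
    rw [w4] at this
    have e : ∀ z : ℝ, 0 ≤ z → (z ^ 4) ^ (5 / 4 : ℝ) = z ^ 5 := fun z hz => by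
      rw [← rpow_natCast, ← rpow_mul hz, ← rpow_natCast]; norm_num
    rwa [e a ha.le, e x1 h1.le, e x2 hx2.le] at this

end Vale.Agent.P237.Six.Cert
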